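import Vale.Agent.P247.Defs

/-!
# P247: averages over segments: smoothness and derivatives
-/

open scoped ContDiff Topology
open intervalIntegral

namespace Vale.Agent.P247

namespace Avg

/-- weighted average over the segment from `x` to `x + v` -/
noncomputable def A {G : Type} [NormedAddCommGroup G] [NormedSpace ℝ G] (w : ℝ → ℝ) (v : X)
    (f : X → G) (x : X) : G := ∫ s in (0 : ℝ)..1, w s • f (x + s • v)

variable {w : ℝ → ℝ} {v : X}

theorem cont_int {G : Type} [NormedAddCommGroup G] [NormedSpace ℝ G] (hw : Continuous w)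
    {f : X → G} (hf : Continuous f) : Continuous fun p : X × ℝ => w p.2 • f (p.1 + p.2 • v) := by
  fun_prop

theorem cont_int' {G : Type} [NormedAddCommGroup G] [NormedSpace ℝ G] (hw : Continuous w)
    {f : X → G} (hf : Continuous f) (x : X) : Continuous fun s : ℝ => w s • f (x + s • v) := by
  fun_prop

theorem continuous_A {G : Type} [NormedAddCommGroup G] [NormedSpace ℝ G] (hw : Continuous w)
    {f : X → G} (hf : Continuous f) : Continuous (A w v f) := by
  apply intervalIntegral.continuous_parametric_intervalIntegral_of_continuous'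
  exact cont_int hw hf

theorem hasFDerivAt_A {G : Type} [NormedAddCommGroup G] [NormedSpace ℝ G] (hw : Continuous w)
    {f : X → G} (hf : ContDiff ℝ 1 f) (x : X) :
    HasFDerivAt (A w v f) (A w v (fderiv ℝ f) x) x := by
  have hf' : Continuous (fderiv ℝ f) := hf.continuous_fderiv one_ne_zero
  have hc : Continuous fun p : X × ℝ => w p.2 • fderiv ℝ f (p.1 + p.2 • v) := cont_int hw hf'
  have hK : IsCompact (Metric.closedBall x 1 ×ˢ Set.Icc (0 : ℝ) 1) :=
    (isCompact_closedBall x 1).prod isCompact_Icc
  obtain ⟨C, hC⟩ := hK.exists_bound_of_continuousOn hc.continuousOn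
  refine intervalIntegral.hasFDerivAt_integral_of_dominated_of_fderiv_le
    (F := fun y s => w s • f (y + s • v)) (F' := fun y s => w s • fderiv ℝ f (y + s • v))
    (s := Metric.ball x 1) (bound := fun _ => C) (Metric.ball_mem_nhds x one_pos)
    (Filter.Eventually.of_forall fun y => (cont_int' hw hf.continuous y).aestronglyMeasurable)
    ((cont_int' hw hf.continuous x).intervalIntegrable _ _)
    (cont_int' hw hf' x).aestronglyMeasurable ?_ intervalIntegrable_const ?_
  · refine Filter.Eventually.of_forall fun s hs y hy => ?_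
    rw [Set.uIoc_of_le zero_le_one] at hs
    exact hC (y, s) ⟨Metric.ball_subset_closedBall hy, hs.1.le, hs.2⟩
  · refine Filter.Eventually.of_forall fun s _ y _ => ?_
    have h1 : HasFDerivAt f (fderiv ℝ f (y + s • v)) (y + s • v) :=
      (hf.differentiable one_ne_zero _).hasFDerivAt
    have h2 : HasFDerivAt (fun y : X => y + s • v) (ContinuousLinearMap.id ℝ X) y :=
      (hasFDerivAt_id y).add_const _
    have h3 := h1.comp y h2
    rw [ContinuousLinearMap.comp_id] at h3
    exact h3.const_smul (w s)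

theorem contDiff_A_nat (hw : Continuous w) (n : ℕ) :
    ∀ {G : Type} [NormedAddCommGroup G] [NormedSpace ℝ G] (f : X → G),
      ContDiff ℝ n f → ContDiff ℝ n (A w v f) := by
  induction n with
  | zero =>
    intro G _ _ f hf
    have hf' : Continuous f := hf.continuous
    have := (contDiff_zero (𝕜 := ℝ)).2 (continuous_A (v := v) hw hf')
    simpa using this
  | succ n ih =>
    intro G _ _ f hf
    have hf1 : ContDiff ℝ 1 f := hf.of_le (by
      push_cast
      exact le_add_self)
    have h1 : fderiv ℝ (A w v f) = A w v (fderiv ℝ f) := by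
      funext x
      exact (hasFDerivAt_A hw hf1 x).fderiv
    have h2 : ContDiff ℝ n (fderiv ℝ f) := by
      have := (contDiff_succ_iff_fderiv (n := (n : WithTop ℕ∞))).1 (by simpa using hf)
      exact this.2.2
    have h3 := (contDiff_succ_iff_fderiv (𝕜 := ℝ) (f := A w v f) (n := (n : WithTop ℕ∞))).2
      ⟨fun x => (hasFDerivAt_A hw hf1 x).differentiableAt, by simp, by rw [h1]; exact ih _ h2⟩
    simpa using h3

theorem contDiff_A {G : Type} [NormedAddCommGroup G] [NormedSpace ℝ G] (hw : Continuous w)
    {f : X → G} (hf : ContDiff ℝ ∞ f) : ContDiff ℝ ∞ (A w v f) := by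
  rw [contDiff_infty] at hf ⊢
  exact fun n => contDiff_A_nat hw n f (hf n)

theorem pd_A (hw : Continuous w) {f : X → ℝ} (hf : ContDiff ℝ ∞ f) (j : Fin 4) :
    pd j (A w v f) = A w v (pd j f) := by
  funext x
  have hf1 : ContDiff ℝ 1 f := hf.of_le (by exact_mod_cast le_top)
  unfold pd
  rw [(hasFDerivAt_A hw hf1 x).fderiv]
  unfold A
  rw [ContinuousLinearMap.intervalIntegral_apply]
  · rfl
  · exact (cont_int' hw (hf1.continuous_fderiv one_ne_zero) x).intervalIntegrable _ _

theorem per_A {f : X → ℝ} (hf : ∀ i x, f (x + Pi.single i 1) = f x) (i : Fin 4) (x : X) :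
    A w v f (x + Pi.single i 1) = A w v f x := by
  unfold A
  congr 1
  funext s
  rw [add_right_comm, hf]

theorem Mop_eq (i : Fin 4) (f : X → ℝ) : Mop i f = A (fun _ => 1) (Pi.single i 1) f := by
  funext x
  simp [Mop, A]

theorem Kop_eq (i : Fin 4) (f : X → ℝ) : Kop i f = A (fun s => s - 1 / 2) (Pi.single i 1) f := by
  funext x
  simp [Kop, A]

end Avg

theorem SP.pd {f : X → ℝ} (hf : SP f) (i : Fin 4) : SP (pd i f) := by
  constructor
  · have h := (contDiff_infty_iff_fderiv.1 hf.smooth).2
    exact h.clm_apply contDiff_const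
  · intro j x
    unfold Vale.Agent.P247.pd
    have h1 : (fun y => f (y + Pi.single j 1)) = f := funext fun y => hf.per j y
    have h2 : fderiv ℝ (fun y => f (y + Pi.single j 1)) x = fderiv ℝ f (x + Pi.single j 1) :=
      fderiv_comp_add_right _
    rw [← h2, h1]

theorem SP.M {f : X → ℝ} (hf : SP f) (i : Fin 4) : SP (Mop i f) := by
  rw [Avg.Mop_eq]
  exact ⟨Avg.contDiff_A continuous_const hf.smooth, fun j x => Avg.per_A hf.per j x⟩

theorem SP.K {f : X → ℝ} (hf : SP f) (i : Fin 4) : SP (Kop i f) := by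
  rw [Avg.Kop_eq]
  exact ⟨Avg.contDiff_A (by fun_prop) hf.smooth, fun j x => Avg.per_A hf.per j x⟩

theorem pd_M {f : X → ℝ} (hf : SP f) (i j : Fin 4) :
    Vale.Agent.P247.pd j (Mop i f) = Mop i (Vale.Agent.P247.pd j f) := by
  rw [Avg.Mop_eq, Avg.Mop_eq]
  exact Avg.pd_A continuous_const hf.smooth j

theorem pd_K {f : X → ℝ} (hf : SP f) (i j : Fin 4) :
    Vale.Agent.P247.pd j (Kop i f) = Kop i (Vale.Agent.P247.pd j f) := by
  rw [Avg.Kop_eq, Avg.Kop_eq]
  exact Avg.pd_A (by fun_prop) hf.smooth j

end Vale.Agent.P247
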