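import Vale.Agent.P247.Defs

/-!
# P247: translation means and periodic primitives, pointwise identities
-/

open scoped ContDiff
open intervalIntegral

namespace Vale.Agent.P247

namespace Calc2

theorem cont_line {f : X → ℝ} (hf : SP f) (i : Fin 4) (x : X) :
    Continuous fun s : ℝ => f (x + s • Pi.single i 1) := by
  have h1 : Continuous f := hf.smooth.continuous
  exact h1.comp (by fun_prop)

theorem hasDeriv_line {f : X → ℝ} (hf : SP f) (i : Fin 4) (x : X) (s : ℝ) :
    HasDerivAt (fun s : ℝ => f (x + s • Pi.single i 1))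
      (Vale.Agent.P247.pd i f (x + s • Pi.single i 1)) s := by
  have h1 : DifferentiableAt ℝ f (x + s • Pi.single i 1) :=
    (hf.smooth.differentiable (by simp)) _
  have h2 : HasDerivAt (fun s : ℝ => x + s • (Pi.single i (1 : ℝ) : X)) (Pi.single i 1) s := by
    have := ((hasDerivAt_id s).smul_const (Pi.single i (1 : ℝ) : X)).const_add x
    simpa using this
  exact h1.hasFDerivAt.comp_hasDerivAt s h2

theorem cont_pd_line {f : X → ℝ} (hf : SP f) (i : Fin 4) (x : X) :
    Continuous fun s : ℝ => Vale.Agent.P247.pd i f (x + s • Pi.single i 1) := by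
  have h1 : Continuous (fderiv ℝ f) := hf.smooth.continuous_fderiv (by simp)
  have h2 : Continuous (Vale.Agent.P247.pd i f) := h1.clm_apply continuous_const
  exact h2.comp (by fun_prop)

end Calc2

open Calc2

theorem K_pd_self {f : X → ℝ} (hf : SP f) (i : Fin 4) (x : X) :
    Kop i (Vale.Agent.P247.pd i f) x = f x - Mop i f x := by
  unfold Kop Mop
  have h := intervalIntegral.integral_mul_deriv_eq_deriv_mul (a := (0 : ℝ)) (b := 1)
    (u := fun s => s - 1 / 2) (v := fun s : ℝ => f (x + s • Pi.single i 1))
    (u' := fun _ => 1) (v' := fun s => Vale.Agent.P247.pd i f (x + s • Pi.single i 1))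
    (fun s _ => (hasDerivAt_id s).sub_const _) (fun s _ => hasDeriv_line hf i x s)
    (continuous_const.intervalIntegrable _ _) ((cont_pd_line hf i x).intervalIntegrable _ _)
  rw [h]
  have hp := hf.per i x
  simp only [one_smul, zero_smul, add_zero, one_mul, hp]
  ring

theorem M_pd_self {f : X → ℝ} (hf : SP f) (i : Fin 4) (x : X) :
    Mop i (Vale.Agent.P247.pd i f) x = 0 := by
  unfold Mop
  have h := intervalIntegral.integral_eq_sub_of_hasDerivAt (a := (0 : ℝ)) (b := 1)
    (fun s _ => hasDeriv_line hf i x s) ((cont_pd_line hf i x).intervalIntegrable _ _)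
  rw [h]
  have hp := hf.per i x
  simp [hp]

theorem M_add {f g : X → ℝ} (hf : SP f) (hg : SP g) (i : Fin 4) (x : X) :
    Mop i (fun y => f y + g y) x = Mop i f x + Mop i g x := by
  unfold Mop
  exact intervalIntegral.integral_add ((cont_line hf i x).intervalIntegrable _ _)
    ((cont_line hg i x).intervalIntegrable _ _)

theorem M_smul (f : X → ℝ) (i : Fin 4) (c : ℝ) (x : X) :
    Mop i (fun y => c * f y) x = c * Mop i f x := by
  unfold Mop
  exact intervalIntegral.integral_const_mul _ _

theorem K_add {f g : X → ℝ} (hf : SP f) (hg : SP g) (i : Fin 4) (x : X) :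
    Kop i (fun y => f y + g y) x = Kop i f x + Kop i g x := by
  unfold Kop
  have h1 : Continuous fun s : ℝ => (s - 1 / 2) * f (x + s • Pi.single i 1) :=
    (by fun_prop : Continuous fun s : ℝ => s - 1 / 2).mul (cont_line hf i x)
  have h2 : Continuous fun s : ℝ => (s - 1 / 2) * g (x + s • Pi.single i 1) :=
    (by fun_prop : Continuous fun s : ℝ => s - 1 / 2).mul (cont_line hg i x)
  rw [← intervalIntegral.integral_add (h1.intervalIntegrable _ _) (h2.intervalIntegrable _ _)]
  simp only [mul_add]

theorem K_smul (f : X → ℝ) (i : Fin 4) (c : ℝ) (x : X) :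
    Kop i (fun y => c * f y) x = c * Kop i f x := by
  unfold Kop
  rw [← intervalIntegral.integral_const_mul]
  congr 1
  funext s
  ring

theorem M_pos {f : X → ℝ} (hf : SP f) (h : ∀ x, 0 < f x) (i : Fin 4) (x : X) :
    0 < Mop i f x := by
  unfold Mop
  exact intervalIntegral.intervalIntegral_pos_of_pos ((cont_line hf i x).intervalIntegrable _ _)
    (fun s => h _) one_pos

end Vale.Agent.P247
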