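import Vale.Agent.P247.Defs

/-!
P247: one-entry moves and deformations between two triples.
-/

open scoped ContDiff

namespace Vale.Agent.P247

/-- Two hypersymplectic triples which agree except in one entry, in which they are cohomologous. -/
def Move (v v' : Fin 3 → X → V) : Prop :=
  IsHypersymplectic v ∧ IsHypersymplectic v' ∧
    ∃ k : Fin 3, (∀ i, i ≠ k → v i = v' i) ∧ Cohomologous (v k) (v' k)

/-- `v` is the end of a cohomologous deformation of `w` through hypersymplectic structures. -/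
def Joined (w v : Fin 3 → X → V) : Prop :=
  ∃ Ω : ℝ → Fin 3 → X → V,
    (∀ i, ContDiff ℝ ∞ fun p : ℝ × X => Ω p.1 i p.2) ∧ Ω 0 = w ∧ Ω 1 = v ∧
    ∀ t ∈ Set.Icc (0 : ℝ) 1, IsHypersymplectic (Ω t) ∧ ∀ i, Cohomologous (Ω t i) (w i)

end Vale.Agent.P247
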