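import Vale.Agent.P247.Move
import Vale.Agent.P247.MoveDefs

/-!
P247: a chain of one-entry moves gives a smooth deformation.
-/

open scoped ContDiff Matrix

namespace Vale.Agent.P247

namespace ChainA

theorem cohomologous_refl (F : X → V) : Cohomologous F F := by
  refine ⟨fun _ _ => 0, fun k => ⟨contDiff_const, fun i x => rfl⟩, fun x j k => ?_⟩
  unfold Vale.Agent.P247.pd
  simp

theorem cohomologous_step {B C W : X → V} (h1 : Cohomologous B W) (h2 : Cohomologous B C)
    (s : ℝ) : Cohomologous (fun x => B x + s • (C x - B x)) W := by
  obtain ⟨α, hα, hα2⟩ := h1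
  obtain ⟨β, hβ, hβ2⟩ := h2
  have hsp : ∀ k, SP (fun y => s * β k y) := fun k =>
    ⟨contDiff_const.mul (hβ k).smooth, fun i x => by rw [(hβ k).per]⟩
  refine ⟨fun k y => α k y - s * β k y, fun k => ?_, fun x j k => ?_⟩
  · exact ⟨(hα k).smooth.sub (hsp k).smooth, fun i x => by simp only [(hα k).per, (hβ k).per]⟩
  · have hpd : ∀ j k, Vale.Agent.P247.pd j (fun y => α k y - s * β k y) x =
        Vale.Agent.P247.pd j (α k) x - s * Vale.Agent.P247.pd j (β k) x := by
      intro j k
      unfold Vale.Agent.P247.pd
      have d1 : DifferentiableAt ℝ (α k) x := ((hα k).smooth.differentiable (by simp)) x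
      have d2 : DifferentiableAt ℝ (β k) x := ((hβ k).smooth.differentiable (by simp)) x
      rw [fderiv_fun_sub d1 (d2.const_mul s), fderiv_const_mul d2]
      simp
    have e1 := hα2 x j k
    have e2 := hβ2 x j k
    rw [hpd, hpd]
    simp only [Pi.add_apply, Pi.smul_apply, Pi.sub_apply, smul_eq_mul]
    linear_combination e1 - s * e2

end ChainA

open ChainA in
theorem joined_of_chain {w v : Fin 3 → X → V} (hw : IsHypersymplectic w)
    (h : Relation.ReflTransGen Move w v) : Joined w v := by
  induction h with
  | refl =>
    exact ⟨fun _ => w, fun i => (hw.1 i).smooth.comp contDiff_snd, rfl, rfl,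
      fun t _ => ⟨hw, fun i => cohomologous_refl _⟩⟩
  | @tail b c _ hbc ih =>
    obtain ⟨Ω, hΩ, h0, h1, hpath⟩ := ih
    obtain ⟨hb, hc, k, hk, hco⟩ := hbc
    have hco' : ∀ i, Cohomologous (b i) (c i) := by
      intro i
      by_cases hi : i = k
      · rw [hi]; exact hco
      · rw [← hk i hi]; exact cohomologous_refl _
    have hbw : ∀ i, Cohomologous (b i) (w i) := by
      intro i
      have := (hpath 1 ⟨zero_le_one, le_rfl⟩).2 i
      rwa [h1] at this
    refine ⟨fun t i x => Ω (Real.smoothTransition (2 * t)) i x +
      Real.smoothTransition (2 * t - 1) • (c i x - b i x), fun i => ?_, ?_, ?_, fun t ht => ?_⟩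
    · have s1 : ContDiff ℝ ∞ fun p : ℝ × X => Real.smoothTransition (2 * p.1) :=
        Real.smoothTransition.contDiff.comp (contDiff_const.mul contDiff_fst)
      have s2 : ContDiff ℝ ∞ fun p : ℝ × X => Real.smoothTransition (2 * p.1 - 1) :=
        Real.smoothTransition.contDiff.comp
          ((contDiff_const.mul contDiff_fst).sub contDiff_const)
      exact ((hΩ i).comp (s1.prodMk contDiff_snd)).add
        (s2.smul (((hc.1 i).smooth.comp contDiff_snd).sub ((hb.1 i).smooth.comp contDiff_snd)))
    · funext i x
      have e1 : Real.smoothTransition (2 * 0) = 0 :=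
        Real.smoothTransition.zero_of_nonpos (by norm_num)
      have e2 : Real.smoothTransition (2 * 0 - 1) = 0 :=
        Real.smoothTransition.zero_of_nonpos (by norm_num)
      simp only [e1, e2, h0, zero_smul, add_zero]
    · funext i x
      have e1 : Real.smoothTransition (2 * 1) = 1 :=
        Real.smoothTransition.one_of_one_le (by norm_num)
      have e2 : Real.smoothTransition (2 * 1 - 1) = 1 :=
        Real.smoothTransition.one_of_one_le (by norm_num)
      simp only [e1, e2, h1, one_smul]
      abel
    · rcases le_total t (1 / 2) with h2 | h2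
      · have e2 : Real.smoothTransition (2 * t - 1) = 0 :=
          Real.smoothTransition.zero_of_nonpos (by linarith)
        have e3 : (fun i x => Ω (Real.smoothTransition (2 * t)) i x +
            Real.smoothTransition (2 * t - 1) • (c i x - b i x)) =
            Ω (Real.smoothTransition (2 * t)) := by
          funext i x
          rw [e2, zero_smul, add_zero]
        have := hpath (Real.smoothTransition (2 * t))
          ⟨Real.smoothTransition.nonneg _, Real.smoothTransition.le_one _⟩
        rw [← e3] at this
        exact this
      · obtain ⟨s, hs⟩ : ∃ s, s = Real.smoothTransition (2 * t - 1) := ⟨_, rfl⟩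
        have hs01 : s ∈ Set.Icc (0 : ℝ) 1 := by
          rw [hs]
          exact ⟨Real.smoothTransition.nonneg _, Real.smoothTransition.le_one _⟩
        have e1 : Real.smoothTransition (2 * t) = 1 :=
          Real.smoothTransition.one_of_one_le (by linarith)
        have e3 : (fun i x => Ω (Real.smoothTransition (2 * t)) i x +
            Real.smoothTransition (2 * t - 1) • (c i x - b i x)) =
            fun i x => b i x + s • (c i x - b i x) := by
          funext i x
          rw [e1, h1, hs]
        have e4 : (fun i x => b i x + s • (c i x - b i x)) =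
            fun i x => (1 - s) • b i x + s • c i x := by
          funext i x
          rw [smul_sub, sub_smul, one_smul]
          abel
        refine ⟨?_, fun i => ?_⟩
        · show IsHypersymplectic (fun i x => Ω (Real.smoothTransition (2 * t)) i x +
            Real.smoothTransition (2 * t - 1) • (c i x - b i x))
          rw [e3, e4]
          exact move b c hb hc k hk hco s hs01
        · have e5 := congrFun e3 i
          show Cohomologous (fun x => Ω (Real.smoothTransition (2 * t)) i x +
            Real.smoothTransition (2 * t - 1) • (c i x - b i x)) (w i)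
          have e6 : (fun x => Ω (Real.smoothTransition (2 * t)) i x +
            Real.smoothTransition (2 * t - 1) • (c i x - b i x)) =
            fun x => b i x + s • (c i x - b i x) := e5
          rw [e6]
          exact cohomologous_step (hbw i) (hco' i) s

end Vale.Agent.P247
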