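import Vale.Agent.P247.Pos

/-!
# P247: Gram matrices
-/

open scoped ContDiff Matrix
open intervalIntegral

namespace Vale.Agent.P247

theorem posDef_iff (v : Fin 3 → V) :
    (Matrix.of fun i j => wedge (v i) (v j) : Matrix (Fin 3) (Fin 3) ℝ).PosDef ↔
      ∀ a : Fin 3 → ℝ, a ≠ 0 → 0 < wedge (∑ i, a i • v i) (∑ i, a i • v i) := by
  have key : ∀ a : Fin 3 → ℝ,
      star a ⬝ᵥ ((Matrix.of fun i j => wedge (v i) (v j) : Matrix (Fin 3) (Fin 3) ℝ) *ᵥ a) =
        wedge (∑ i, a i • v i) (∑ i, a i • v i) := by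
    intro a
    rw [← Bl_apply]
    simp only [Fin.sum_univ_three, map_add, map_smul, LinearMap.add_apply, LinearMap.smul_apply,
      smul_eq_mul, Bl_apply, dotProduct, Matrix.mulVec, Matrix.of_apply, star_trivial,
      Pi.star_apply]
    ring
  rw [Matrix.posDef_iff_dotProduct_mulVec]
  constructor
  · intro h a ha
    rw [← key]
    exact h.2 ha
  · intro h
    refine ⟨?_, fun {a} ha => ?_⟩
    · ext i j
      simp only [Matrix.conjTranspose_apply, Matrix.of_apply, star_trivial]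
      exact Bl_comm _ _
    · rw [key]
      exact h a ha

/-- two independent vectors of `ℝ³` extend to a basis -/
theorem exists_basis (c : Fin 2 → Fin 3 → ℝ) (hc : LinearIndependent ℝ c) :
    ∃ (e : Fin 3 → ℝ), ∀ a : Fin 3 → ℝ, ∃ r : Fin 3 → ℝ, a = r 0 • e + r 1 • c 0 + r 2 • c 1 ∧
      (a ≠ 0 → r ≠ 0) ∧ ∀ r' : Fin 3 → ℝ, r' ≠ 0 → r' 0 • e + r' 1 • c 0 + r' 2 • c 1 ≠ 0 := by
  have hne : Submodule.span ℝ (Set.range c) ≠ ⊤ := by
    intro h
    have h1 := finrank_span_eq_card hc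
    rw [h, finrank_top, Module.finrank_fin_fun, Fintype.card_fin] at h1
    omega
  obtain ⟨e, he⟩ : ∃ e, e ∉ Submodule.span ℝ (Set.range c) := by
    by_contra h
    push Not at h
    exact hne (Submodule.eq_top_iff'.2 h)
  have hli : LinearIndependent ℝ (Fin.cons e c : Fin 3 → Fin 3 → ℝ) :=
    linearIndependent_finCons.2 ⟨hc, he⟩
  let B := basisOfLinearIndependentOfCardEqFinrank hli (by simp)
  have hB : ∀ i, B i = (Fin.cons e c : Fin 3 → Fin 3 → ℝ) i := fun i => by
    simp [B]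
  have hsum : ∀ r : Fin 3 → ℝ, ∑ i, r i • B i = r 0 • e + r 1 • c 0 + r 2 • c 1 := by
    intro r
    rw [Fin.sum_univ_three, hB, hB, hB]
    rfl
  refine ⟨e, fun a => ⟨B.repr a, ?_, ?_, ?_⟩⟩
  · rw [← hsum]
    exact (B.sum_repr a).symm
  · intro ha h0
    apply ha
    rw [← B.sum_repr a]
    refine Finset.sum_eq_zero fun i _ => ?_
    have : (B.repr a) i = 0 := congrFun h0 i
    rw [this, zero_smul]
  · intro r' hr' h0
    apply hr'
    rw [← hsum] at h0
    funext i
    exact Fintype.linearIndependent_iff.1 B.linearIndependent r' h0 i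

end Vale.Agent.P247
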