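import Vale.Agent.P247.MoveDefs
import Vale.Agent.P247.Gram

/-! P247: triples taken at three nearby times of a deformation are hypersymplectic. -/

open scoped ContDiff Matrix

namespace Vale.Agent.P247

namespace ChainB

theorem per_fract {G : Type} {F : X → G} (hF : ∀ i x, F (x + Pi.single i 1) = F x) (x : X) :
    F x = F (fun i => Int.fract (x i)) := by
  have h1 : ∀ (n : Fin 4 → ℤ) (S : Finset (Fin 4)) (y : X),
      F (y + ∑ i ∈ S, n i • (Pi.single i (1 : ℝ) : X)) = F y := by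
    intro n S
    induction S using Finset.induction_on with
    | empty => intro y; simp
    | insert i S hi ih =>
      intro y
      rw [Finset.sum_insert hi, ← add_assoc, ih]
      exact (show Function.Periodic F (Pi.single i (1 : ℝ) : X) from hF i).zsmul (n i) y
  have e : x = (fun i => Int.fract (x i)) + ∑ i, ⌊x i⌋ • (Pi.single i (1 : ℝ) : X) := by
    funext j
    rw [Pi.add_apply, Finset.sum_apply, Finset.sum_eq_single j]
    · simp
    · intro i _ hij
      simp [Ne.symm hij]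
    · intro hj
      exact absurd (Finset.mem_univ _) hj
  conv_lhs => rw [e]
  exact h1 (fun i => ⌊x i⌋) Finset.univ _

theorem cont_wedge : Continuous fun q : V × V => wedge q.1 q.2 := by
  unfold wedge
  fun_prop

theorem wedge_smul_self (c : ℝ) (v : V) : wedge (c • v) (c • v) = c ^ 2 * wedge v v := by
  simp only [wedge, Pi.smul_apply, smul_eq_mul]
  ring

end ChainB

open ChainB in
theorem mixed_pos (Ω : ℝ → Fin 3 → X → V) (hs : ∀ i, ContDiff ℝ ∞ fun p : ℝ × X => Ω p.1 i p.2)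
    (h : ∀ t ∈ Set.Icc (0 : ℝ) 1, IsHypersymplectic (Ω t)) :
    ∃ n : ℕ, 0 < n ∧ ∀ s : Fin 3 → ℝ, (∀ i, s i ∈ Set.Icc (0 : ℝ) 1) →
      (∀ i j, |s i - s j| ≤ 1 / n) → IsHypersymplectic (fun i => Ω (s i) i) := by
  let v : (Fin 3 → ℝ) × X × (Fin 3 → ℝ) → V := fun p => ∑ i, p.2.2 i • Ω (p.1 i) i p.2.1
  let f : (Fin 3 → ℝ) × X × (Fin 3 → ℝ) → ℝ := fun p => wedge (v p) (v p)
  have hv : Continuous v := by
    refine continuous_finsetSum _ fun i _ => ?_
    have h1 : Continuous fun p : (Fin 3 → ℝ) × X × (Fin 3 → ℝ) => p.2.2 i := by fun_prop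
    have h2 : Continuous fun p : (Fin 3 → ℝ) × X × (Fin 3 → ℝ) => ((p.1 i, p.2.1) : ℝ × X) := by
      fun_prop
    exact h1.smul ((hs i).continuous.comp h2)
  have hf : Continuous f := cont_wedge.comp (hv.prodMk hv)
  let g : (Fin 3 → ℝ) × X × (Fin 3 → ℝ) → ℝ := fun p => |p.1 0 - p.1 1| + |p.1 1 - p.1 2|
  have hg : Continuous g := by
    change Continuous fun p : (Fin 3 → ℝ) × X × (Fin 3 → ℝ) => |p.1 0 - p.1 1| + |p.1 1 - p.1 2|
    fun_prop
  let K : Set ((Fin 3 → ℝ) × X × (Fin 3 → ℝ)) :=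
    Set.Icc (0 : Fin 3 → ℝ) 1 ×ˢ Set.Icc (0 : X) 1 ×ˢ Metric.sphere (0 : Fin 3 → ℝ) 1
  have hK : IsCompact K := isCompact_Icc.prod (isCompact_Icc.prod (isCompact_sphere _ _))
  have hC : IsCompact (K ∩ {p | f p ≤ 0}) := hK.inter_right (isClosed_le hf continuous_const)
  obtain ⟨δ, hδ, hδ2⟩ : ∃ δ > 0, ∀ p ∈ K ∩ {p | f p ≤ 0}, δ ≤ g p := by
    rcases (K ∩ {p | f p ≤ 0}).eq_empty_or_nonempty with he | hne
    · refine ⟨1, one_pos, fun p hp => ?_⟩
      rw [he] at hp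
      exact absurd hp (Set.notMem_empty p)
    · obtain ⟨p, hp, hmin⟩ := hC.exists_isMinOn hne hg.continuousOn
      refine ⟨g p, ?_, fun q hq => hmin hq⟩
      by_contra hneg
      have h0 : |p.1 0 - p.1 1| + |p.1 1 - p.1 2| ≤ 0 := not_lt.1 hneg
      have h01 : p.1 0 = p.1 1 := by
        have := abs_nonneg (p.1 1 - p.1 2)
        exact sub_eq_zero.1 (abs_nonpos_iff.1 (by linarith))
      have h12 : p.1 1 = p.1 2 := by
        have := abs_nonneg (p.1 0 - p.1 1)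
        exact sub_eq_zero.1 (abs_nonpos_iff.1 (by linarith))
      have hp1 : p.1 ∈ Set.Icc (0 : Fin 3 → ℝ) 1 := hp.1.1
      have hp3 : p.2.2 ∈ Metric.sphere (0 : Fin 3 → ℝ) 1 := hp.1.2.2
      have hne0 : p.2.2 ≠ 0 := by
        intro h0
        rw [h0] at hp3
        simp at hp3
      have hall : ∀ i, p.1 i = p.1 0 := by
        intro i
        fin_cases i
        · rfl
        · exact h01.symm
        · exact (h01.trans h12).symm
      have ht := (posDef_iff fun i => Ω (p.1 0) i p.2.1).1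
        ((h (p.1 0) ⟨hp1.1 0, hp1.2 0⟩).2 p.2.1) p.2.2 hne0
      have hfp : f p ≤ 0 := hp.2
      have e : v p = ∑ i, p.2.2 i • Ω (p.1 0) i p.2.1 := by
        change ∑ i, p.2.2 i • Ω (p.1 i) i p.2.1 = _
        simp only [hall]
      have hfe : f p = wedge (∑ i, p.2.2 i • Ω (p.1 0) i p.2.1)
          (∑ i, p.2.2 i • Ω (p.1 0) i p.2.1) := by
        change wedge (v p) (v p) = _
        rw [e]
      rw [hfe] at hfp
      linarith
  obtain ⟨n, hn⟩ := exists_nat_gt (2 / δ)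
  have hn0 : (0 : ℝ) < n := lt_trans (by positivity) hn
  refine ⟨n, by exact_mod_cast hn0, fun s hsI hsd => ⟨fun i => (h (s i) (hsI i)).1 i,
    fun x => ?_⟩⟩
  rw [posDef_iff]
  intro a ha
  -- reduce to the unit cube
  have hx : ∀ i, Ω (s i) i x = Ω (s i) i (fun j => Int.fract (x j)) := fun i =>
    per_fract ((h (s i) (hsI i)).1 i).per x
  simp only [hx]
  set y : X := fun j => Int.fract (x j) with hy
  have hyI : y ∈ Set.Icc (0 : X) 1 :=
    ⟨fun j => Int.fract_nonneg _, fun j => (Int.fract_lt_one _).le⟩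
  have hna : 0 < ‖a‖ := norm_pos_iff.2 ha
  have hsph : ‖a‖⁻¹ • a ∈ Metric.sphere (0 : Fin 3 → ℝ) 1 := by
    rw [mem_sphere_zero_iff_norm, norm_smul, norm_inv, norm_norm, inv_mul_cancel₀ hna.ne']
  by_contra hneg
  have hmem : ((s, y, ‖a‖⁻¹ • a) : (Fin 3 → ℝ) × X × (Fin 3 → ℝ)) ∈ K ∩ {p | f p ≤ 0} := by
    refine ⟨⟨⟨fun i => (hsI i).1, fun i => (hsI i).2⟩, hyI, hsph⟩, ?_⟩
    change wedge (∑ i, (‖a‖⁻¹ • a) i • Ω (s i) i y) (∑ i, (‖a‖⁻¹ • a) i • Ω (s i) i y) ≤ 0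
    have e : ∑ i, (‖a‖⁻¹ • a) i • Ω (s i) i y = ‖a‖⁻¹ • ∑ i, a i • Ω (s i) i y := by
      rw [Finset.smul_sum]
      refine Finset.sum_congr rfl fun i _ => ?_
      rw [Pi.smul_apply, smul_eq_mul, mul_smul]
    rw [e, wedge_smul_self]
    exact mul_nonpos_of_nonneg_of_nonpos (sq_nonneg _) (not_lt.1 hneg)
  have h1 : δ ≤ |s 0 - s 1| + |s 1 - s 2| := hδ2 _ hmem
  have h2 := hsd 0 1
  have h3 := hsd 1 2
  have h4 : (2 : ℝ) / n < δ := by
    rw [div_lt_iff₀ hn0]
    rw [div_lt_iff₀ hδ] at hn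
    linarith
  have h5 : (1 : ℝ) / n + 1 / n = 2 / n := by ring
  linarith

end Vale.Agent.P247
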