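import Vale.Agent.P247.ChainA
import Vale.Agent.P247.ChainB

/-!
P247: the deformation problem on the four-torus in terms of one-entry moves.
-/


namespace Vale.Agent.P247

theorem Cohomologous.diff {F G H : X → V} (h1 : Cohomologous F H) (h2 : Cohomologous G H) :
    Cohomologous F G := by
  obtain ⟨α, hα, h⟩ := h1
  obtain ⟨β, hβ, h'⟩ := h2
  refine ⟨fun k y => α k y - β k y, fun k => (hα k).sub (hβ k), fun x j k => ?_⟩
  rw [pd_sub (hα k) (hβ k), pd_sub (hα j) (hβ j)]
  linarith [h x j k, h' x j k]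

theorem three_moves {w : Fin 3 → X → V} {Ω : ℝ → Fin 3 → X → V} {n : ℕ}
    (hco : ∀ t ∈ Set.Icc (0 : ℝ) 1, ∀ i, Cohomologous (Ω t i) (w i))
    (hm : ∀ s : Fin 3 → ℝ, (∀ i, s i ∈ Set.Icc (0 : ℝ) 1) → (∀ i j, |s i - s j| ≤ 1 / n) →
      IsHypersymplectic (fun i => Ω (s i) i)) {a b : ℝ} (ha : a ∈ Set.Icc (0 : ℝ) 1)
    (hb : b ∈ Set.Icc (0 : ℝ) 1) (hab : |a - b| ≤ 1 / n) :
    Relation.ReflTransGen Move (Ω a) (Ω b) := by
  have hn : (0 : ℝ) ≤ 1 / n := by positivity
  have hba : |b - a| ≤ 1 / n := by rwa [abs_sub_comm]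
  have hyp : ∀ p q r : ℝ, (p = a ∨ p = b) → (q = a ∨ q = b) → (r = a ∨ r = b) →
      IsHypersymplectic fun i => Ω ((![p, q, r] : Fin 3 → ℝ) i) i := by
    intro p q r hp hq hr
    have hall : ∀ i, (![p, q, r] : Fin 3 → ℝ) i = a ∨ (![p, q, r] : Fin 3 → ℝ) i = b := by
      intro i
      fin_cases i
      · exact hp
      · exact hq
      · exact hr
    refine hm ![p, q, r] (fun i => ?_) (fun i j => ?_)
    · rcases hall i with h | h
      · rw [h]; exact ha
      · rw [h]; exact hb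
    · rcases hall i with h | h <;> rcases hall j with h' | h' <;> rw [h, h']
      · rw [sub_self, abs_zero]; exact hn
      · exact hab
      · exact hba
      · rw [sub_self, abs_zero]; exact hn
  have e0 : (fun i => Ω ((![a, a, a] : Fin 3 → ℝ) i) i) = Ω a := by
    funext i
    fin_cases i <;> rfl
  have e3 : (fun i => Ω ((![b, b, b] : Fin 3 → ℝ) i) i) = Ω b := by
    funext i
    fin_cases i <;> rfl
  have m0 : Move (fun i => Ω ((![a, a, a] : Fin 3 → ℝ) i) i)
      (fun i => Ω ((![b, a, a] : Fin 3 → ℝ) i) i) := by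
    refine ⟨hyp a a a (.inl rfl) (.inl rfl) (.inl rfl), hyp b a a (.inr rfl) (.inl rfl) (.inl rfl),
      0, fun i hi => ?_, (hco a ha 0).diff (hco b hb 0)⟩
    fin_cases i
    · exact absurd rfl hi
    · rfl
    · rfl
  have m1 : Move (fun i => Ω ((![b, a, a] : Fin 3 → ℝ) i) i)
      (fun i => Ω ((![b, b, a] : Fin 3 → ℝ) i) i) := by
    refine ⟨hyp b a a (.inr rfl) (.inl rfl) (.inl rfl), hyp b b a (.inr rfl) (.inr rfl) (.inl rfl),
      1, fun i hi => ?_, (hco a ha 1).diff (hco b hb 1)⟩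
    fin_cases i
    · rfl
    · exact absurd rfl hi
    · rfl
  have m2 : Move (fun i => Ω ((![b, b, a] : Fin 3 → ℝ) i) i)
      (fun i => Ω ((![b, b, b] : Fin 3 → ℝ) i) i) := by
    refine ⟨hyp b b a (.inr rfl) (.inr rfl) (.inl rfl), hyp b b b (.inr rfl) (.inr rfl) (.inr rfl),
      2, fun i hi => ?_, (hco a ha 2).diff (hco b hb 2)⟩
    fin_cases i
    · rfl
    · rfl
    · exact absurd rfl hi
  rw [← e0, ← e3]
  exact ((Relation.ReflTransGen.single m0).tail m1).tail m2

/-- a deformation can be replaced by a finite chain of one-entry moves -/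
theorem chain_of_joined {w v : Fin 3 → X → V} (h : Joined w v) :
    Relation.ReflTransGen Move w v := by
  obtain ⟨Ω, hs, h0, h1, hΩ⟩ := h
  obtain ⟨n, hn, hm⟩ := mixed_pos Ω hs fun t ht => (hΩ t ht).1
  have hn' : (0 : ℝ) < n := by exact_mod_cast hn
  have hmem : ∀ k : ℕ, k ≤ n → ((k : ℝ) / n) ∈ Set.Icc (0 : ℝ) 1 := by
    intro k hk
    refine ⟨by positivity, ?_⟩
    rw [div_le_one hn']
    exact_mod_cast hk
  have key : ∀ k : ℕ, k ≤ n → Relation.ReflTransGen Move w (Ω ((k : ℝ) / n)) := by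
    intro k
    induction k with
    | zero =>
      intro _
      rw [Nat.cast_zero, zero_div, h0]
    | succ k ih =>
      intro hk
      refine (ih (by omega)).trans (three_moves (w := w) (fun t ht => (hΩ t ht).2) hm
        (hmem k (by omega)) (hmem (k + 1) hk) ?_)
      have : (k : ℝ) / n - ((k + 1 : ℕ) : ℝ) / n = -(1 / n) := by
        push_cast
        ring
      rw [this, abs_neg, abs_of_nonneg (by positivity)]
  have := key n le_rfl
  rwa [div_self hn'.ne', h1] at this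

/-- the deformation problem in terms of one-entry moves -/
theorem deformation_iff_chain (w : Fin 3 → X → V) (hw : IsHypersymplectic w) :
    HasHyperkahlerDeformation w ↔
      ∃ θ : Fin 3 → X → V, IsHyperkahler θ ∧ Relation.ReflTransGen Move w θ := by
  constructor
  · rintro ⟨Ω, hs, h0, hΩ, h1⟩
    exact ⟨Ω 1, h1, chain_of_joined ⟨Ω, hs, h0, rfl, hΩ⟩⟩
  · rintro ⟨θ, hθ, hc⟩
    obtain ⟨Ω, hs, h0, h1, hΩ⟩ := joined_of_chain hw hc
    exact ⟨Ω, hs, h0, hΩ, by rw [h1]; exact hθ⟩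

end Vale.Agent.P247
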