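import Vale.Agent.P247.Circle

/-!
P247: triples joined by one-entry moves to a triple which is invariant in one direction.
-/

open scoped ContDiff Matrix
open intervalIntegral

namespace Vale.Agent.P247

theorem bar_of_coh {F H : X → V} (hF : IsClosedForm F) (hH : IsClosedForm H)
    (h : Cohomologous F H) : bar F = bar H := by
  obtain ⟨α, hα, h2⟩ := h
  funext j k
  have h1 : (fun y => F y j k) = fun y => H y j k +
      (Vale.Agent.P247.pd j (α k) y + (-1) * Vale.Agent.P247.pd k (α j) y) := by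
    funext y
    have := h2 y j k
    linarith
  rw [bar, h1, mean_add (hH.sp j k) (((hα k).pd j).add (((hα j).pd k).const_mul (-1))),
    mean_add ((hα k).pd j) (((hα j).pd k).const_mul (-1)), mean_smul]
  have e1 : mean (fun y => Vale.Agent.P247.pd j (α k) y) 0 = 0 := mean_pd (hα k) j 0
  have e2 : mean (fun y => Vale.Agent.P247.pd k (α j) y) 0 = 0 := mean_pd (hα j) k 0
  rw [e1, e2]
  simp [bar]

theorem pd0_of_inv {f : X → ℝ} (hf : Differentiable ℝ f)
    (h : ∀ x (s : ℝ), f (x + s • Pi.single 0 1) = f x) (x : X) :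
    Vale.Agent.P247.pd 0 f x = 0 := by
  unfold Vale.Agent.P247.pd
  have h1 : HasDerivAt (fun s : ℝ => f (x + s • Pi.single 0 1))
      (fderiv ℝ f x (Pi.single 0 1)) 0 := by
    have h2 : HasDerivAt (fun s : ℝ => x + s • (Pi.single 0 1 : X)) (Pi.single 0 1) 0 := by
      have := ((hasDerivAt_id (0 : ℝ)).smul_const (Pi.single 0 1 : X)).const_add x
      simpa using this
    have h3 : HasFDerivAt f (fderiv ℝ f x) (x + (0 : ℝ) • (Pi.single 0 1 : X)) := by
      rw [zero_smul, add_zero]
      exact (hf x).hasFDerivAt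
    exact h3.comp_hasDerivAt (0 : ℝ) h2
  have h4 : HasDerivAt (fun s : ℝ => f (x + s • Pi.single 0 1)) 0 0 := by
    have e : (fun s : ℝ => f (x + s • Pi.single 0 1)) = fun _ => f x := funext fun s => h x s
    rw [e]
    exact hasDerivAt_const _ _
  exact h1.unique h4

theorem deform_of_chain_inv (w : Fin 3 → X → V) (h : IsHypersymplectic w) (hn : IsNormalized w)
    (v : Fin 3 → X → V) (hc : Relation.ReflTransGen Move w v)
    (hinv : ∀ i x (s : ℝ), v i (x + s • Pi.single 0 1) = v i x) :
    HasHyperkahlerDeformation w := by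
  obtain ⟨Ω, hs, h0, h1, hΩ⟩ := joined_of_chain h hc
  have hv1 := hΩ 1 ⟨zero_le_one, le_rfl⟩
  rw [h1] at hv1
  obtain ⟨hv, hco⟩ := hv1
  have hbar : ∀ i, bar (v i) = bar (w i) := fun i => bar_of_coh (hv.1 i) (h.1 i) (hco i)
  obtain ⟨θ, hθ, hj2⟩ := inv_joined v hv (fun i j => by
    rw [hbar i, hbar j, ← wedge_bar (h.1 i) (h.1 j)]
    exact hn i j) fun m j k x => pd0_of_inv ((hv.1 m).sp j k).diff
      (fun x s => by rw [hinv m x s]) x
  exact (deformation_iff_chain w h).2 ⟨θ, hθ, hc.trans (chain_of_joined hj2)⟩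

end Vale.Agent.P247
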