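import Vale.Agent.P247.Defs

/-!
P247: averages over the circles in the direction of the first coordinate.
-/

open scoped ContDiff

namespace Vale.Agent.P247

/-- the average of a form over the circles in the direction of the first coordinate -/
noncomputable def circ (F : X → V) : X → V := fun x j k => Mop 0 (fun y => F y j k) x

/-- The values of the triple along each circle in the direction of the first coordinate are
mutually positive: `w_a(x) ∧ w_a(x + s e₀) > 0` for all `x`, `s` and `a ≠ 0`, with
`w_a = ∑ aᵢ wᵢ`. -/
def CirclePositive (w : Fin 3 → X → V) : Prop :=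
  ∀ a : Fin 3 → ℝ, a ≠ 0 → ∀ (x : X) (s : ℝ),
    0 < wedge (∑ i, a i • w i x) (∑ i, a i • w i (x + s • Pi.single 0 1))

end Vale.Agent.P247
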