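import Vale.Agent.P247.Sums
import Vale.Agent.P247.Calc
import Vale.Agent.P247.Calc2

/-! P247: a closed two-form on the torus is cohomologous to its mean. -/

open scoped ContDiff

namespace Vale.Agent.P247

namespace Exact

/-- closed two-forms, by coefficients -/
structure CF (G : Fin 4 → Fin 4 → X → ℝ) : Prop where
  sp : ∀ j k, SP (G j k)
  anti : ∀ j k x, G j k x = -G k j x
  closed : ∀ i j k x, pd i (G j k) x + pd j (G k i) x + pd k (G i j) x = 0

theorem M_zero (i : Fin 4) (x : X) : Mop i (fun _ => (0 : ℝ)) x = 0 := by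
  simp [Mop]

theorem CF.M {G : Fin 4 → Fin 4 → X → ℝ} (hG : CF G) (l : Fin 4) :
    CF (fun j k => Mop l (G j k)) := by
  refine ⟨fun j k => (hG.sp j k).M l, fun j k x => ?_, fun i j k x => ?_⟩
  · have h1 : G j k = fun y => (-1 : ℝ) * G k j y := by
      funext y
      rw [hG.anti j k y]
      ring
    rw [h1, M_smul]
    ring
  · rw [pd_M (hG.sp j k), pd_M (hG.sp k i), pd_M (hG.sp i j),
      ← M_add ((hG.sp j k).pd i) ((hG.sp k i).pd j),
      ← M_add (((hG.sp j k).pd i).add ((hG.sp k i).pd j)) ((hG.sp i j).pd k)]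
    have h1 : (fun y => pd i (G j k) y + pd j (G k i) y + pd k (G i j) y) = fun _ => (0 : ℝ) := by
      funext y
      exact hG.closed i j k y
    rw [h1]
    exact M_zero l x

/-- one step -/
theorem CF.step {G : Fin 4 → Fin 4 → X → ℝ} (hG : CF G) (i j k : Fin 4) (x : X) :
    G j k x - Mop i (G j k) x = pd j (Kop i (G i k)) x - pd k (Kop i (G i j)) x := by
  rw [← K_pd_self (hG.sp j k) i x, pd_K (hG.sp i k), pd_K (hG.sp i j)]
  have h1 : pd i (G j k) = fun y => pd j (G i k) y + (-1 : ℝ) * pd k (G i j) y := by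
    funext y
    have h2 := hG.closed i j k y
    have h3 : G k i = fun y => -G i k y := by
      funext z
      exact hG.anti k i z
    rw [h3, pd_neg (hG.sp i k)] at h2
    linarith
  have h4 : SP (fun y => (-1 : ℝ) * pd k (G i j) y) := by
    have h5 : (fun y => (-1 : ℝ) * pd k (G i j) y) = fun y => -pd k (G i j) y := by
      funext y
      ring
    rw [h5]
    exact ((hG.sp i j).pd k).neg
  rw [h1, K_add ((hG.sp i k).pd j) h4, K_smul]
  ring

end Exact

/-- a closed form is cohomologous to its mean -/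
theorem cohomologous_mean {F : X → V} (hF : IsClosedForm F) :
    Cohomologous F (fun x j k => mean (fun y => F y j k) x) := by
  have h0 : Exact.CF (fun j k y => F y j k) :=
    ⟨fun j k => hF.sp j k, fun j k x => hF.anti x j k, fun i j k x => hF.closed i j k x⟩
  have h1 := h0.M 0
  have h2 := h1.M 1
  have h3 := h2.M 2
  refine ⟨fun k y => (Kop 0 (fun z => F z 0 k) y + Kop 1 (Mop 0 fun z => F z 1 k) y) +
    (Kop 2 (Mop 1 (Mop 0 fun z => F z 2 k)) y +
      Kop 3 (Mop 2 (Mop 1 (Mop 0 fun z => F z 3 k))) y), fun k => ?_, fun x j k => ?_⟩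
  · exact (((h0.sp 0 k).K 0).add ((h1.sp 1 k).K 1)).add
      (((h2.sp 2 k).K 2).add ((h3.sp 3 k).K 3))
  · have e : ∀ j k, pd j (fun y => (Kop 0 (fun z => F z 0 k) y +
        Kop 1 (Mop 0 fun z => F z 1 k) y) + (Kop 2 (Mop 1 (Mop 0 fun z => F z 2 k)) y +
        Kop 3 (Mop 2 (Mop 1 (Mop 0 fun z => F z 3 k))) y)) x =
        (pd j (Kop 0 (fun z => F z 0 k)) x + pd j (Kop 1 (Mop 0 fun z => F z 1 k)) x) +
        (pd j (Kop 2 (Mop 1 (Mop 0 fun z => F z 2 k))) x +
          pd j (Kop 3 (Mop 2 (Mop 1 (Mop 0 fun z => F z 3 k)))) x) := by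
      intro j k
      rw [pd_add (((h0.sp 0 k).K 0).add ((h1.sp 1 k).K 1))
        (((h2.sp 2 k).K 2).add ((h3.sp 3 k).K 3)), pd_add ((h0.sp 0 k).K 0) ((h1.sp 1 k).K 1),
        pd_add ((h2.sp 2 k).K 2) ((h3.sp 3 k).K 3)]
    rw [e j k, e k j]
    have s0 := h0.step 0 j k x
    have s1 := h1.step 1 j k x
    have s2 := h2.step 2 j k x
    have s3 := h3.step 3 j k x
    simp only [mean]
    linarith

end Vale.Agent.P247
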