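import Vale.Agent.P247.Calc
import Vale.Agent.P247.Calc2

/-!
# P247: the mean value of a function over the torus
-/

open scoped ContDiff
open intervalIntegral

namespace Vale.Agent.P247

namespace Mean

theorem M_zero (i : Fin 4) : Mop i (fun _ => 0) = fun _ => 0 := by
  funext x
  simp [Mop]

theorem M_pd_zero {f : X → ℝ} (hf : SP f) (i : Fin 4) : Mop i (Vale.Agent.P247.pd i f) = fun _ => 0 :=
  funext fun x => M_pd_self hf i x

theorem mean_pd_fun {f : X → ℝ} (hf : SP f) (i : Fin 4) :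
    mean (Vale.Agent.P247.pd i f) = fun _ => 0 := by
  have h0 := hf.M 0
  have h1 := h0.M 1
  have h2 := h1.M 2
  unfold mean
  fin_cases i
  · change Mop 3 (Mop 2 (Mop 1 (Mop 0 (Vale.Agent.P247.pd 0 f)))) = _
    rw [M_pd_zero hf, M_zero, M_zero, M_zero]
  · change Mop 3 (Mop 2 (Mop 1 (Mop 0 (Vale.Agent.P247.pd 1 f)))) = _
    rw [← pd_M hf, M_pd_zero h0, M_zero, M_zero]
  · change Mop 3 (Mop 2 (Mop 1 (Mop 0 (Vale.Agent.P247.pd 2 f)))) = _
    rw [← pd_M hf, ← pd_M h0, M_pd_zero h1, M_zero]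
  · change Mop 3 (Mop 2 (Mop 1 (Mop 0 (Vale.Agent.P247.pd 3 f)))) = _
    rw [← pd_M hf, ← pd_M h0, ← pd_M h1, M_pd_zero h2]

theorem sp_mean {f : X → ℝ} (hf : SP f) : SP (mean f) := (((hf.M 0).M 1).M 2).M 3

theorem pd_mean {f : X → ℝ} (hf : SP f) (i : Fin 4) :
    Vale.Agent.P247.pd i (mean f) = fun _ => 0 := by
  rw [← mean_pd_fun hf i]
  unfold mean
  rw [pd_M (((hf.M 0).M 1).M 2), pd_M ((hf.M 0).M 1), pd_M (hf.M 0), pd_M hf]

end Mean

open Mean

theorem mean_const {f : X → ℝ} (hf : SP f) (x y : X) : mean f x = mean f y := by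
  have h1 : Differentiable ℝ (mean f) := (sp_mean hf).smooth.differentiable (by simp)
  refine is_const_of_fderiv_eq_zero h1 (fun z => ?_) x y
  apply ContinuousLinearMap.coe_injective
  refine (Pi.basisFun ℝ (Fin 4)).ext fun i => ?_
  have := congrFun (pd_mean hf i) z
  simpa [Vale.Agent.P247.pd] using this

theorem torusInt_eq (f : X → ℝ) : torusInt f = mean f 0 := by
  unfold torusInt mean Mop
  congr 1
  funext s
  congr 1
  funext r
  congr 1
  funext q
  congr 1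
  funext p
  congr 1
  funext i
  fin_cases i <;> simp

theorem mean_pd {f : X → ℝ} (hf : SP f) (i : Fin 4) (x : X) :
    mean (Vale.Agent.P247.pd i f) x = 0 := by
  rw [mean_pd_fun hf]

theorem mean_add {f g : X → ℝ} (hf : SP f) (hg : SP g) (x : X) :
    mean (fun y => f y + g y) x = mean f x + mean g x := by
  unfold mean
  have e0 : Mop 0 (fun y => f y + g y) = fun y => Mop 0 f y + Mop 0 g y :=
    funext fun y => M_add hf hg 0 y
  rw [e0]
  have e1 : Mop 1 (fun y => Mop 0 f y + Mop 0 g y) =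
      fun y => Mop 1 (Mop 0 f) y + Mop 1 (Mop 0 g) y :=
    funext fun y => M_add (hf.M 0) (hg.M 0) 1 y
  rw [e1]
  have e2 : Mop 2 (fun y => Mop 1 (Mop 0 f) y + Mop 1 (Mop 0 g) y) =
      fun y => Mop 2 (Mop 1 (Mop 0 f)) y + Mop 2 (Mop 1 (Mop 0 g)) y :=
    funext fun y => M_add ((hf.M 0).M 1) ((hg.M 0).M 1) 2 y
  rw [e2]
  exact M_add (((hf.M 0).M 1).M 2) (((hg.M 0).M 1).M 2) 3 x

theorem mean_smul (f : X → ℝ) (c : ℝ) (x : X) : mean (fun y => c * f y) x = c * mean f x := by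
  unfold mean
  have e0 : Mop 0 (fun y => c * f y) = fun y => c * Mop 0 f y :=
    funext fun y => M_smul f 0 c y
  rw [e0]
  have e1 : Mop 1 (fun y => c * Mop 0 f y) = fun y => c * Mop 1 (Mop 0 f) y :=
    funext fun y => M_smul _ 1 c y
  rw [e1]
  have e2 : Mop 2 (fun y => c * Mop 1 (Mop 0 f) y) = fun y => c * Mop 2 (Mop 1 (Mop 0 f)) y :=
    funext fun y => M_smul _ 2 c y
  rw [e2]
  exact M_smul _ 3 c x

theorem mean_pos {f : X → ℝ} (hf : SP f) (h : ∀ x, 0 < f x) (x : X) : 0 < mean f x := by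
  unfold mean
  exact M_pos (((hf.M 0).M 1).M 2) (fun y => M_pos ((hf.M 0).M 1)
    (fun y => M_pos (hf.M 0) (fun y => M_pos hf h 0 y) 1 y) 2 y) 3 x

end Vale.Agent.P247
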