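import Vale.Agent.P247.Defs

/-!
# P247: positivity of the wedge product and convexity
-/

open scoped ContDiff
open intervalIntegral

namespace Vale.Agent.P247

/-- the wedge product as a bilinear form -/
noncomputable def Bl : V →ₗ[ℝ] V →ₗ[ℝ] ℝ :=
  LinearMap.mk₂ ℝ wedge
    (by intro a b c; simp only [wedge, Pi.add_apply]; ring)
    (by intro a b c; simp only [wedge, Pi.smul_apply, smul_eq_mul]; ring)
    (by intro a b c; simp only [wedge, Pi.add_apply]; ring)
    (by intro a b c; simp only [wedge, Pi.smul_apply, smul_eq_mul]; ring)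

theorem Bl_apply (a b : V) : Bl a b = wedge a b := rfl

theorem Bl_comm (a b : V) : Bl a b = Bl b a := by
  simp only [Bl_apply, wedge]
  ring

/-- there is no positive definite subspace of dimension four -/
theorem exists_wedge_nonpos (v : Fin 4 → V) :
    ∃ a : Fin 4 → ℝ, a ≠ 0 ∧ wedge (∑ i, a i • v i) (∑ i, a i • v i) ≤ 0 := by
  let S : (Fin 4 → ℝ) →ₗ[ℝ] V :=
    { toFun := fun a => ∑ i, a i • v i
      map_add' := by
        intro a b
        rw [← Finset.sum_add_distrib]
        exact Finset.sum_congr rfl fun i _ => by rw [Pi.add_apply, add_smul]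
      map_smul' := by
        intro c a
        rw [RingHom.id_apply, Finset.smul_sum]
        exact Finset.sum_congr rfl fun i _ => by rw [Pi.smul_apply, smul_eq_mul, mul_smul] }
  let D : V →ₗ[ℝ] (Fin 3 → ℝ) :=
    { toFun := fun α => ![α 0 1 + α 2 3, α 0 2 - α 1 3, α 0 3 + α 1 2]
      map_add' := by
        intro a b
        ext i
        fin_cases i <;> simp <;> ring
      map_smul' := by
        intro c a
        ext i
        fin_cases i <;> simp <;> ring }
  have hker : LinearMap.ker (D ∘ₗ S) ≠ ⊥ := by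
    apply LinearMap.ker_ne_bot_of_finrank_lt
    simp
  obtain ⟨a, ha, ha0⟩ := (Submodule.ne_bot_iff _).1 hker
  refine ⟨a, ha0, ?_⟩
  rw [LinearMap.mem_ker] at ha
  obtain ⟨w, hw⟩ : ∃ w : V, w = ∑ i, a i • v i := ⟨_, rfl⟩
  have hD : D w = 0 := by
    rw [hw]
    exact ha
  have e0 : w 0 1 + w 2 3 = 0 := congrFun hD 0
  have e1 : w 0 2 - w 1 3 = 0 := congrFun hD 1
  have e2 : w 0 3 + w 1 2 = 0 := congrFun hD 2
  rw [← hw]
  have h0 : w 0 1 = -w 2 3 := by linarith
  have h1 : w 0 2 = w 1 3 := by linarith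
  have h2 : w 0 3 = -w 1 2 := by linarith
  simp only [wedge, h0, h1, h2]
  nlinarith [sq_nonneg (w 2 3), sq_nonneg (w 1 3), sq_nonneg (w 1 2)]

section Perp

variable (c d : V)

/-- the discriminant -/
noncomputable def disc : ℝ := Bl c c * Bl d d - Bl c d * Bl c d

/-- the coefficient of `c` of the orthogonal projection -/
noncomputable def lam : V →ₗ[ℝ] ℝ :=
  (disc c d)⁻¹ • (Bl d d • Bl c - Bl c d • Bl d)

/-- the coefficient of `d` of the orthogonal projection -/
noncomputable def rho : V →ₗ[ℝ] ℝ :=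
  (disc c d)⁻¹ • (Bl c c • Bl d - Bl c d • Bl c)

/-- the projection to the complement of `c` and `d` -/
noncomputable def Pp : V →ₗ[ℝ] V :=
  LinearMap.id - (lam c d).smulRight c - (rho c d).smulRight d

theorem Pp_apply (v : V) : Pp c d v = v - lam c d v • c - rho c d v • d := rfl

theorem lam_apply (v : V) :
    lam c d v = (disc c d)⁻¹ * (Bl d d * Bl c v - Bl c d * Bl d v) := rfl

theorem rho_apply (v : V) :
    rho c d v = (disc c d)⁻¹ * (Bl c c * Bl d v - Bl c d * Bl c v) := rfl

variable {c d}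

theorem Bl_Pp_c (h : disc c d ≠ 0) (v : V) : Bl (Pp c d v) c = 0 := by
  rw [Pp_apply, map_sub, map_sub, map_smul, map_smul, LinearMap.sub_apply, LinearMap.sub_apply,
    LinearMap.smul_apply, LinearMap.smul_apply, smul_eq_mul, smul_eq_mul, lam_apply, rho_apply,
    Bl_comm v c, Bl_comm d c]
  field_simp
  rw [disc]
  ring

theorem Bl_Pp_d (h : disc c d ≠ 0) (v : V) : Bl (Pp c d v) d = 0 := by
  rw [Pp_apply, map_sub, map_sub, map_smul, map_smul, LinearMap.sub_apply, LinearMap.sub_apply,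
    LinearMap.smul_apply, LinearMap.smul_apply, smul_eq_mul, smul_eq_mul, lam_apply, rho_apply,
    Bl_comm v d]
  field_simp
  rw [disc]
  ring

end Perp

/-- expansion of the square of a combination -/
theorem sq_expand {c d p q : V} (hpc : Bl p c = 0) (hpd : Bl p d = 0) (hqc : Bl q c = 0)
    (hqd : Bl q d = 0) (s t b e : ℝ) :
    Bl (s • p + t • q + b • c + e • d) (s • p + t • q + b • c + e • d) =
      s ^ 2 * Bl p p + 2 * s * t * Bl p q + t ^ 2 * Bl q q +
        Bl (b • c + e • d) (b • c + e • d) := by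
  simp only [map_add, map_smul, LinearMap.add_apply, LinearMap.smul_apply, smul_eq_mul, hpc, hpd,
    hqc, hqd, Bl_comm c p, Bl_comm c q, Bl_comm d p, Bl_comm d q, Bl_comm q p]
  ring

/-- convexity -/
theorem pos_segment (u : X → V) (hu : Continuous u) (c d ub : V)
    (h : ∀ x, ∀ a : Fin 3 → ℝ, a ≠ 0 → 0 < wedge (a 0 • u x + a 1 • c + a 2 • d)
      (a 0 • u x + a 1 • c + a 2 • d))
    (hub : ∀ l : V →ₗ[ℝ] ℝ, (∀ x, 0 < l (u x)) → 0 < l ub) (t : ℝ) (ht : t ∈ Set.Icc (0 : ℝ) 1)
    (x : X) (a : Fin 3 → ℝ) (ha : a ≠ 0) :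
    0 < wedge (a 0 • ((1 - t) • u x + t • ub) + a 1 • c + a 2 • d)
      (a 0 • ((1 - t) • u x + t • ub) + a 1 • c + a 2 • d) := by
  -- positivity on the plane of `c` and `d`
  have hcd : ∀ b e : ℝ, (b ≠ 0 ∨ e ≠ 0) → 0 < Bl (b • c + e • d) (b • c + e • d) := by
    intro b e hbe
    have h1 := h 0 ![0, b, e] (by
      intro h0
      have e1 : b = 0 := congrFun h0 1
      have e2 : e = 0 := congrFun h0 2
      rcases hbe with hb | hb
      · exact hb e1
      · exact hb e2)
    have h2 : (![0, b, e] : Fin 3 → ℝ) 0 • u 0 + (![0, b, e] : Fin 3 → ℝ) 1 • c +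
        (![0, b, e] : Fin 3 → ℝ) 2 • d = b • c + e • d := by
      simp
    rw [h2] at h1
    exact h1
  have hcd' : ∀ b e : ℝ, 0 ≤ Bl (b • c + e • d) (b • c + e • d) := by
    intro b e
    by_cases hb : b ≠ 0 ∨ e ≠ 0
    · exact (hcd b e hb).le
    · push Not at hb
      rw [hb.1, hb.2, zero_smul, zero_smul, add_zero, map_zero]
  have hcc : 0 < Bl c c := by
    have := hcd 1 0 (Or.inl one_ne_zero)
    rwa [one_smul, zero_smul, add_zero] at this
  have hdisc : 0 < disc c d := by
    have h1 := hcd (Bl c d) (-Bl c c) (Or.inr (neg_ne_zero.2 hcc.ne'))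
    have h2 : Bl (Bl c d • c + (-Bl c c) • d) (Bl c d • c + (-Bl c c) • d) =
        Bl c c * disc c d := by
      simp only [map_add, map_smul, LinearMap.add_apply, LinearMap.smul_apply, smul_eq_mul, disc,
        Bl_comm d c]
      ring
    rw [h2] at h1
    exact (pos_iff_pos_of_mul_pos h1).1 hcc
  have hc' := fun v => Bl_Pp_c hdisc.ne' v
  have hd' := fun v => Bl_Pp_d hdisc.ne' v
  -- claim 1
  have c1 : ∀ y, 0 < Bl (Pp c d (u y)) (Pp c d (u y)) := by
    intro y
    have h1 := h y ![1, -lam c d (u y), -rho c d (u y)] (by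
      intro h0
      exact one_ne_zero (congrFun h0 0))
    have e1 : Pp c d (u y) = (1 : ℝ) • u y + (-lam c d (u y)) • c + (-rho c d (u y)) • d := by
      rw [Pp_apply, one_smul, neg_smul, neg_smul]
      abel
    rw [e1]
    exact h1
  -- claim 2
  have c2 : ∀ y z, Bl (Pp c d (u y)) (Pp c d (u z)) ≠ 0 := by
    intro y z h0
    obtain ⟨b, hb, hb'⟩ := exists_wedge_nonpos ![Pp c d (u y), Pp c d (u z), c, d]
    rw [← Bl_apply, Fin.sum_univ_four] at hb'
    simp only [Matrix.cons_val_zero, Matrix.cons_val_one, Matrix.cons_val] at hb'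
    rw [sq_expand (hc' _) (hd' _) (hc' _) (hd' _), h0, mul_zero, add_zero] at hb'
    have h1 := c1 y
    have h2 := c1 z
    by_cases h3 : b 0 = 0
    · by_cases h4 : b 1 = 0
      · have h5 : b 2 ≠ 0 ∨ b 3 ≠ 0 := by
          by_contra h6
          push Not at h6
          apply hb
          ext i
          fin_cases i
          · exact h3
          · exact h4
          · exact h6.1
          · exact h6.2
        have h6 := hcd _ _ h5
        rw [h3, h4] at hb'
        linarith
      · have h5 := hcd' (b 2) (b 3)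
        have h6 : 0 < b 1 ^ 2 := by positivity
        have h7 : 0 ≤ b 0 ^ 2 := sq_nonneg _
        nlinarith [mul_pos h6 h2, mul_nonneg h7 h1.le]
    · have h5 := hcd' (b 2) (b 3)
      have h6 : 0 < b 0 ^ 2 := by positivity
      have h7 : 0 ≤ b 1 ^ 2 := sq_nonneg _
      nlinarith [mul_pos h6 h1, mul_nonneg h7 h2.le]
  -- claim 3
  have hP : Continuous (Pp c d) := LinearMap.continuous_of_finiteDimensional _
  have c3 : ∀ y z, 0 < Bl (Pp c d (u y)) (Pp c d (u z)) := by
    intro y z
    by_contra hneg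
    push Not at hneg
    have hg : Continuous fun z => Bl (Pp c d (u y)) (Pp c d (u z)) :=
      (LinearMap.continuous_of_finiteDimensional (Bl (Pp c d (u y)))).comp (hP.comp hu)
    obtain ⟨w, hw⟩ := mem_range_of_exists_le_of_exists_ge hg ⟨z, hneg⟩ ⟨y, (c1 y).le⟩
    exact c2 y w hw
  -- claim 4
  have c4 : ∀ y, 0 < Bl (Pp c d (u y)) (Pp c d ub) := fun y =>
    hub ((Bl (Pp c d (u y))) ∘ₗ (Pp c d)) fun z => c3 y z
  have c5 : 0 < Bl (Pp c d ub) (Pp c d ub) :=
    hub ((Bl (Pp c d ub)) ∘ₗ (Pp c d)) fun z => by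
      show 0 < Bl (Pp c d ub) (Pp c d (u z))
      rw [Bl_comm]
      exact c4 z
  -- the end
  obtain ⟨w, hw⟩ : ∃ w : V, w = (1 - t) • u x + t • ub := ⟨_, rfl⟩
  have hw1 : 0 < Bl (Pp c d w) (Pp c d w) := by
    have e1 : Pp c d w = (1 - t) • Pp c d (u x) + t • Pp c d ub := by
      rw [hw, map_add, map_smul, map_smul]
    have e2 : Bl (Pp c d w) (Pp c d w) = (1 - t) ^ 2 * Bl (Pp c d (u x)) (Pp c d (u x)) +
        2 * (1 - t) * t * Bl (Pp c d (u x)) (Pp c d ub) +
        t ^ 2 * Bl (Pp c d ub) (Pp c d ub) := by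
      rw [e1]
      simp only [map_add, map_smul, LinearMap.add_apply, LinearMap.smul_apply, smul_eq_mul,
        Bl_comm (Pp c d ub) (Pp c d (u x))]
      ring
    rw [e2]
    have h1 := c1 x
    have h2 := c4 x
    have ht0 := ht.1
    have ht1 : 0 ≤ 1 - t := by linarith [ht.2]
    rcases ht0.eq_or_lt with h0 | h0
    · rw [← h0]
      simpa using h1
    · have h3 : 0 < t ^ 2 * Bl (Pp c d ub) (Pp c d ub) := by positivity
      have h4 : 0 ≤ 2 * (1 - t) * t * Bl (Pp c d (u x)) (Pp c d ub) := by positivity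
      have h5 : 0 ≤ (1 - t) ^ 2 * Bl (Pp c d (u x)) (Pp c d (u x)) := by positivity
      linarith
  rw [← hw, ← Bl_apply]
  have e3 : a 0 • w + a 1 • c + a 2 • d = a 0 • Pp c d w + (0 : ℝ) • Pp c d w +
      (a 1 + a 0 * lam c d w) • c + (a 2 + a 0 * rho c d w) • d := by
    rw [Pp_apply, zero_smul, add_zero, smul_sub, smul_sub, add_smul, add_smul, mul_smul, mul_smul]
    abel
  rw [e3, sq_expand (hc' _) (hd' _) (hc' _) (hd' _)]
  by_cases h0 : a 0 = 0
  · rw [h0]
    have h5 : a 1 + 0 * lam c d w ≠ 0 ∨ a 2 + 0 * rho c d w ≠ 0 := by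
      by_contra h6
      push Not at h6
      rw [zero_mul, add_zero, zero_mul, add_zero] at h6
      apply ha
      ext i
      fin_cases i
      · exact h0
      · exact h6.1
      · exact h6.2
    have h6 := hcd _ _ h5
    linarith
  · have h5 := hcd' (a 1 + a 0 * lam c d w) (a 2 + a 0 * rho c d w)
    have h6 : 0 < a 0 ^ 2 := by positivity
    nlinarith [mul_pos h6 hw1]

end Vale.Agent.P247
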