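import Vale.Agent.P247.Sums
import Vale.Agent.P247.Calc
import Vale.Agent.P247.Mean

/-! P247: Stokes' theorem for the wedge product of an exact and a closed two-form. -/

open scoped ContDiff

namespace Vale.Agent.P247

namespace Stokes

/-- the divergence form of `dα ∧ H` -/
theorem div_form {H : X → V} (hH : IsClosedForm H) (α : Fin 4 → X → ℝ)
    (hα : ∀ k, SP (α k)) (y : X) :
    wedge (fun j k => pd j (α k) y - pd k (α j) y) (H y) =
      (pd 0 (fun y => (α 1 y * H y 2 3 - α 2 y * H y 1 3) + α 3 y * H y 1 2) y +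
        pd 1 (fun y => (α 2 y * H y 0 3 - α 0 y * H y 2 3) - α 3 y * H y 0 2) y) +
      (pd 2 (fun y => (α 0 y * H y 1 3 - α 1 y * H y 0 3) + α 3 y * H y 0 1) y +
        pd 3 (fun y => (α 1 y * H y 0 2 - α 0 y * H y 1 2) - α 2 y * H y 0 1) y) := by
  have hs := hH.sp
  have hm : ∀ k a b, SP (fun y => α k y * H y a b) := fun k a b => (hα k).mul (hs a b)
  rw [pd_add ((hm 1 2 3).sub (hm 2 1 3)) (hm 3 1 2), pd_sub (hm 1 2 3) (hm 2 1 3),
    pd_sub ((hm 2 0 3).sub (hm 0 2 3)) (hm 3 0 2), pd_sub (hm 2 0 3) (hm 0 2 3),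
    pd_add ((hm 0 1 3).sub (hm 1 0 3)) (hm 3 0 1), pd_sub (hm 0 1 3) (hm 1 0 3),
    pd_sub ((hm 1 0 2).sub (hm 0 1 2)) (hm 2 0 1), pd_sub (hm 1 0 2) (hm 0 1 2)]
  rw [pd_mul (hα 1) (hs 2 3), pd_mul (hα 2) (hs 1 3), pd_mul (hα 3) (hs 1 2),
    pd_mul (hα 2) (hs 0 3), pd_mul (hα 0) (hs 2 3), pd_mul (hα 3) (hs 0 2),
    pd_mul (hα 0) (hs 1 3), pd_mul (hα 1) (hs 0 3), pd_mul (hα 3) (hs 0 1),
    pd_mul (hα 1) (hs 0 2), pd_mul (hα 0) (hs 1 2), pd_mul (hα 2) (hs 0 1)]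
  -- antisymmetry of the derivatives
  have ha : ∀ j a b, pd j (fun y => H y a b) y = -pd j (fun y => H y b a) y := by
    intro j a b
    have h1 : (fun y => H y a b) = fun y => -H y b a := by
      funext z
      exact hH.anti z a b
    rw [h1, pd_neg (hs b a)]
  have c0 := hH.closed 1 2 3 y
  have c1 := hH.closed 0 2 3 y
  have c2 := hH.closed 0 1 3 y
  have c3 := hH.closed 0 1 2 y
  rw [ha 2 3 1] at c0
  rw [ha 2 3 0] at c1
  rw [ha 1 3 0] at c2
  rw [ha 1 2 0] at c3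
  unfold wedge
  linear_combination α 0 y * c0 - α 1 y * c1 + α 2 y * c2 - α 3 y * c3

end Stokes

/-- Stokes -/
theorem mean_wedge_exact {H : X → V} (hH : IsClosedForm H) (α : Fin 4 → X → ℝ)
    (hα : ∀ k, SP (α k)) (x : X) :
    mean (fun y => wedge (fun j k => Vale.Agent.P247.pd j (α k) y - Vale.Agent.P247.pd k (α j) y) (H y)) x = 0 := by
  have hs := hH.sp
  have hm : ∀ k a b, SP (fun y => α k y * H y a b) := fun k a b => (hα k).mul (hs a b)
  have g0 := ((hm 1 2 3).sub (hm 2 1 3)).add (hm 3 1 2)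
  have g1 := ((hm 2 0 3).sub (hm 0 2 3)).sub (hm 3 0 2)
  have g2 := ((hm 0 1 3).sub (hm 1 0 3)).add (hm 3 0 1)
  have g3 := ((hm 1 0 2).sub (hm 0 1 2)).sub (hm 2 0 1)
  have h1 : (fun y => wedge (fun j k => Vale.Agent.P247.pd j (α k) y -
      Vale.Agent.P247.pd k (α j) y) (H y)) = fun y =>
      (fun y => pd 0 (fun y => (α 1 y * H y 2 3 - α 2 y * H y 1 3) + α 3 y * H y 1 2) y +
        pd 1 (fun y => (α 2 y * H y 0 3 - α 0 y * H y 2 3) - α 3 y * H y 0 2) y) y +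
      (fun y => pd 2 (fun y => (α 0 y * H y 1 3 - α 1 y * H y 0 3) + α 3 y * H y 0 1) y +
        pd 3 (fun y => (α 1 y * H y 0 2 - α 0 y * H y 1 2) - α 2 y * H y 0 1) y) y := by
    funext y
    exact Stokes.div_form hH α hα y
  rw [h1, mean_add ((g0.pd 0).add (g1.pd 1)) ((g2.pd 2).add (g3.pd 3)),
    mean_add (g0.pd 0) (g1.pd 1), mean_add (g2.pd 2) (g3.pd 3),
    mean_pd g0, mean_pd g1, mean_pd g2, mean_pd g3]
  norm_num

end Vale.Agent.P247
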