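import Vale.Agent.P247.Defs

/-! P247: sums and products of smooth periodic functions. -/

open scoped ContDiff

namespace Vale.Agent.P247

theorem SP.diff {f : X → ℝ} (hf : SP f) : Differentiable ℝ f :=
  hf.smooth.differentiable (by simp)

theorem SP.add {f g : X → ℝ} (hf : SP f) (hg : SP g) : SP (fun y => f y + g y) :=
  ⟨hf.smooth.add hg.smooth, fun i x => by rw [hf.per, hg.per]⟩

theorem SP.sub {f g : X → ℝ} (hf : SP f) (hg : SP g) : SP (fun y => f y - g y) :=
  ⟨hf.smooth.sub hg.smooth, fun i x => by rw [hf.per, hg.per]⟩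

theorem SP.neg {f : X → ℝ} (hf : SP f) : SP (fun y => -f y) :=
  ⟨hf.smooth.neg, fun i x => by rw [hf.per]⟩

theorem SP.mul {f g : X → ℝ} (hf : SP f) (hg : SP g) : SP (fun y => f y * g y) :=
  ⟨hf.smooth.mul hg.smooth, fun i x => by rw [hf.per, hg.per]⟩

theorem pd_add {f g : X → ℝ} (hf : SP f) (hg : SP g) (j : Fin 4) (x : X) :
    pd j (fun y => f y + g y) x = pd j f x + pd j g x := by
  unfold pd
  have h : HasFDerivAt (fun y => f y + g y) (fderiv ℝ f x + fderiv ℝ g x) x :=
    (hf.diff x).hasFDerivAt.add (hg.diff x).hasFDerivAt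
  rw [h.fderiv]
  rfl

theorem pd_sub {f g : X → ℝ} (hf : SP f) (hg : SP g) (j : Fin 4) (x : X) :
    pd j (fun y => f y - g y) x = pd j f x - pd j g x := by
  unfold pd
  have h : HasFDerivAt (fun y => f y - g y) (fderiv ℝ f x - fderiv ℝ g x) x :=
    (hf.diff x).hasFDerivAt.sub (hg.diff x).hasFDerivAt
  rw [h.fderiv]
  rfl

theorem pd_neg {f : X → ℝ} (hf : SP f) (j : Fin 4) (x : X) :
    pd j (fun y => -f y) x = -pd j f x := by
  unfold pd
  have h : HasFDerivAt (fun y => -f y) (-fderiv ℝ f x) x := (hf.diff x).hasFDerivAt.neg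
  rw [h.fderiv]
  rfl

theorem pd_mul {f g : X → ℝ} (hf : SP f) (hg : SP g) (j : Fin 4) (x : X) :
    pd j (fun y => f y * g y) x = f x * pd j g x + g x * pd j f x := by
  unfold pd
  have h : HasFDerivAt (fun y => f y * g y) (f x • fderiv ℝ g x + g x • fderiv ℝ f x) x :=
    (hf.diff x).hasFDerivAt.mul (hg.diff x).hasFDerivAt
  rw [h.fderiv]
  rfl

theorem pd_zero (j : Fin 4) (x : X) : pd j (fun _ => (0 : ℝ)) x = 0 := by
  unfold pd
  rw [fderiv_fun_const]
  rfl

/-- the coefficients of a closed form -/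
theorem IsClosedForm.sp {F : X → V} (hF : IsClosedForm F) (j k : Fin 4) :
    SP (fun y => F y j k) :=
  ⟨contDiff_pi.1 (contDiff_pi.1 hF.smooth j) k, fun i x => by rw [hF.per]⟩

end Vale.Agent.P247
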