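import Vale.Agent.P247.Gram
import Vale.Agent.P247.Pos
import Vale.Agent.P247.Exact
import Vale.Agent.P247.Mean
import Vale.Agent.P247.Sums
import Vale.Agent.P247.Stokes

/-!
P247: the averaged triple is hyperkähler, and the linear path to it stays hypersymplectic, when
two independent constant linear combinations of the forms are constant.
-/

open scoped ContDiff Matrix
open intervalIntegral

namespace Vale.Agent.P247

theorem SP.const_mul {f : X → ℝ} (hf : SP f) (c : ℝ) : SP fun y => c * f y :=
  ⟨contDiff_const.mul hf.smooth, fun i x => by rw [hf.per]⟩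

theorem mean_const_fun (c : ℝ) (x : X) : mean (fun _ => c) x = c := by
  simp [mean, Mop]

theorem mean_zero_fun (x : X) : mean (fun _ => (0 : ℝ)) x = 0 := mean_const_fun 0 x

/-- mean of a finite combination -/
theorem mean_sum {ι : Type} (s : Finset ι) (c : ι → ℝ) (f : ι → X → ℝ) (hf : ∀ i, SP (f i))
    (x : X) : mean (fun y => ∑ i ∈ s, c i * f i y) x = ∑ i ∈ s, c i * mean (f i) x := by
  classical
  have key : ∀ s : Finset ι, SP (fun y => ∑ i ∈ s, c i * f i y) ∧
      mean (fun y => ∑ i ∈ s, c i * f i y) x = ∑ i ∈ s, c i * mean (f i) x := by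
    intro s
    induction s using Finset.induction_on with
    | empty =>
      simp only [Finset.sum_empty]
      exact ⟨⟨contDiff_const, fun _ _ => rfl⟩, mean_zero_fun x⟩
    | insert i s hi ih =>
      simp only [Finset.sum_insert hi]
      refine ⟨((hf i).const_mul (c i)).add ih.1, ?_⟩
      rw [mean_add ((hf i).const_mul (c i)) ih.1, mean_smul, ih.2]
  exact (key s).2

/-- the mean of a form -/
noncomputable def bar (F : X → V) : V := fun j k => mean (fun y => F y j k) 0

theorem lin_expand (l : V →ₗ[ℝ] ℝ) (v : V) :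
    l v = ∑ p : Fin 4 × Fin 4, l (Pi.single p.1 (Pi.single p.2 1)) * v p.1 p.2 := by
  have e : v = ∑ p : Fin 4 × Fin 4, v p.1 p.2 •
      (Pi.single p.1 (Pi.single p.2 (1 : ℝ)) : V) := by
    funext j k
    rw [Finset.sum_apply, Finset.sum_apply, Finset.sum_eq_single (j, k)]
    · simp
    · rintro ⟨a, b⟩ - hab
      by_cases ha : a = j
      · subst ha
        have hb : b ≠ k := fun h => hab (by rw [h])
        simp [hb.symm]
      · simp [Ne.symm ha]
    · intro h
      exact absurd (Finset.mem_univ _) h
  conv_lhs => rw [e]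
  rw [map_sum]
  refine Finset.sum_congr rfl fun p _ => ?_
  rw [map_smul, smul_eq_mul, mul_comm]

theorem mean_lin (l : V →ₗ[ℝ] ℝ) {F : X → V} (hF : IsClosedForm F) (x : X) :
    mean (fun y => l (F y)) x = l (bar F) := by
  have e : (fun y => l (F y)) = fun y => ∑ p : Fin 4 × Fin 4,
      l (Pi.single p.1 (Pi.single p.2 1)) * F y p.1 p.2 := by
    funext y
    exact lin_expand l (F y)
  rw [e, mean_sum Finset.univ (fun p : Fin 4 × Fin 4 => l (Pi.single p.1 (Pi.single p.2 1)))
    (fun p y => F y p.1 p.2) (fun p => hF.sp p.1 p.2) x, lin_expand l (bar F)]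
  refine Finset.sum_congr rfl fun p _ => ?_
  rw [bar, mean_const (hF.sp p.1 p.2) x 0]

theorem sp_lin (l : V →ₗ[ℝ] ℝ) {F : X → V} (hF : IsClosedForm F) : SP fun y => l (F y) :=
  ⟨(LinearMap.toContinuousLinearMap l).contDiff.comp hF.smooth, fun i x => by rw [hF.per]⟩

theorem bar_anti {F : X → V} (hF : IsClosedForm F) (j k : Fin 4) : bar F j k = -bar F k j := by
  have e : (fun y => F y j k) = fun y => (-1 : ℝ) * F y k j := by
    funext y
    rw [hF.anti y j k]
    ring
  rw [bar, e, mean_smul]
  simp [bar]

/-- constant forms are closed -/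
theorem isClosedForm_segment {F : X → V} (hF : IsClosedForm F) {b : V}
    (hb : ∀ j k, b j k = -b k j) (t : ℝ) : IsClosedForm fun x => (1 - t) • F x + t • b where
  smooth := (hF.smooth.const_smul (1 - t)).add contDiff_const
  per i x := by rw [hF.per]
  anti x j k := by
    simp only [Pi.add_apply, Pi.smul_apply, smul_eq_mul]
    rw [hF.anti x j k, hb j k]
    ring
  closed i j k x := by
    have key : ∀ i j k : Fin 4, Vale.Agent.P247.pd i
        (fun y => ((1 - t) • F y + t • b) j k) x =
        (1 - t) * Vale.Agent.P247.pd i (fun y => F y j k) x := by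
      intro i j k
      have hd : DifferentiableAt ℝ (fun y => F y j k) x :=
        ((hF.sp j k).smooth.differentiable (by simp)).differentiableAt
      unfold Vale.Agent.P247.pd
      simp only [Pi.add_apply, Pi.smul_apply, smul_eq_mul]
      rw [fderiv_add_const, fderiv_const_mul hd]
      simp
    rw [key, key, key, ← mul_add, ← mul_add, hF.closed, mul_zero]

/-- linear combinations of closed forms -/
theorem isClosedForm_comb {w : Fin 3 → X → V} (hw : ∀ i, IsClosedForm (w i)) (e : Fin 3 → ℝ) :
    IsClosedForm fun x => ∑ i, e i • w i x where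
  smooth := ContDiff.sum fun i _ => (hw i).smooth.const_smul (e i)
  per i x := Finset.sum_congr rfl fun m _ => by rw [(hw m).per]
  anti x j k := by
    simp only [Finset.sum_apply, Pi.smul_apply, smul_eq_mul]
    rw [← Finset.sum_neg_distrib]
    refine Finset.sum_congr rfl fun m _ => ?_
    rw [(hw m).anti x j k]
    ring
  closed i j k x := by
    have key : ∀ i j k : Fin 4, Vale.Agent.P247.pd i
        (fun y => (∑ m, e m • w m y) j k) x =
        ∑ m, e m * Vale.Agent.P247.pd i (fun y => w m y j k) x := by
      intro i j k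
      have hd : ∀ m, DifferentiableAt ℝ (fun y => w m y j k) x := fun m =>
        (((hw m).sp j k).smooth.differentiable (by simp)).differentiableAt
      have e1 : (fun y => (∑ m, e m • w m y) j k) = fun y => ∑ m, e m * w m y j k := by
        funext y
        simp only [Finset.sum_apply, Pi.smul_apply, smul_eq_mul]
      unfold Vale.Agent.P247.pd
      rw [e1, fderiv_fun_sum fun m _ => (hd m).const_mul (e m)]
      rw [sum_apply]
      refine Finset.sum_congr rfl fun m _ => ?_
      rw [fderiv_const_mul (hd m)]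
      simp
    rw [key, key, key, ← Finset.sum_add_distrib, ← Finset.sum_add_distrib]
    refine Finset.sum_eq_zero fun m _ => ?_
    rw [← mul_add, ← mul_add, (hw m).closed, mul_zero]

theorem bar_comb {w : Fin 3 → X → V} (hw : ∀ i, IsClosedForm (w i)) (e : Fin 3 → ℝ) :
    bar (fun x => ∑ i, e i • w i x) = ∑ i, e i • bar (w i) := by
  funext j k
  have e1 : (fun y => (∑ m, e m • w m y) j k) = fun y => ∑ m, e m * w m y j k := by
    funext y
    simp only [Finset.sum_apply, Pi.smul_apply, smul_eq_mul]
  rw [bar, e1, mean_sum Finset.univ e (fun m y => w m y j k) (fun m => (hw m).sp j k)]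
  simp only [Finset.sum_apply, Pi.smul_apply, smul_eq_mul]
  rfl

theorem bar_const (c : V) : bar (fun _ => c) = c := by
  funext j k
  exact mean_const_fun _ _

/-- the wedge matrix of the means is the integral of the wedge matrix -/
theorem wedge_bar {F H : X → V} (hF : IsClosedForm F) (hH : IsClosedForm H) :
    torusInt (fun x => wedge (F x) (H x)) = wedge (bar F) (bar H) := by
  obtain ⟨α, hα, hα2⟩ := cohomologous_mean hF
  have e1 : (fun x => wedge (F x) (H x)) = fun x => Bl (bar F) (H x) +
      wedge (fun j k => Vale.Agent.P247.pd j (α k) x - Vale.Agent.P247.pd k (α j) x) (H x) := by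
    funext x
    have e2 : F x = bar F + fun j k => Vale.Agent.P247.pd j (α k) x -
        Vale.Agent.P247.pd k (α j) x := by
      funext j k
      rw [Pi.add_apply, Pi.add_apply, ← hα2 x j k, bar, mean_const (hF.sp j k) 0 x]
      ring
    rw [← Bl_apply, ← Bl_apply]
    conv_lhs => rw [e2]
    rw [map_add, LinearMap.add_apply]
  have hsp : SP fun x => wedge (fun j k => Vale.Agent.P247.pd j (α k) x -
      Vale.Agent.P247.pd k (α j) x) (H x) := by
    have e3 : (fun x => wedge (fun j k => Vale.Agent.P247.pd j (α k) x -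
        Vale.Agent.P247.pd k (α j) x) (H x)) = fun x => wedge (F x) (H x) +
        (-1 : ℝ) * Bl (bar F) (H x) := by
      funext x
      have := congrFun e1 x
      beta_reduce at this
      linarith
    rw [e3]
    refine SP.add ⟨?_, fun i x => by rw [hF.per, hH.per]⟩ ((sp_lin (Bl (bar F)) hH).const_mul _)
    have hf := fun j k => (hF.sp j k).smooth
    have hh := fun j k => (hH.sp j k).smooth
    simp only [wedge]
    exact ((((((hf 0 1).mul (hh 2 3)).sub ((hf 0 2).mul (hh 1 3))).add
      ((hf 0 3).mul (hh 1 2))).add ((hf 1 2).mul (hh 0 3))).sub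
      ((hf 1 3).mul (hh 0 2))).add ((hf 2 3).mul (hh 0 1))
  rw [torusInt_eq, e1, mean_add (sp_lin (Bl (bar F)) hH) hsp, mean_lin (Bl (bar F)) hH,
    mean_wedge_exact hH α hα, add_zero]
  rfl

theorem main (w : Fin 3 → X → V) (h : IsHypersymplectic w) (hn : IsNormalized w)
    (hc : HasTwoConstant w) : HasHyperkahlerDeformation w := by
  obtain ⟨c, hc1, hc2⟩ := hc
  obtain ⟨hcl, hpos⟩ := h
  obtain ⟨e, he⟩ := exists_basis c hc1
  have hcl' : ∀ (t : ℝ) (i : Fin 3), IsClosedForm fun x => (1 - t) • w i x + t • bar (w i) :=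
    fun t i =>
    isClosedForm_segment (hcl i) (bar_anti (hcl i)) t
  refine ⟨fun t i x => (1 - t) • w i x + t • bar (w i), fun i => ?_, ?_, fun t ht => ⟨⟨?_, ?_⟩, ?_⟩,
    ?_, ?_⟩
  · exact ((contDiff_const.sub contDiff_fst).smul ((hcl i).smooth.comp contDiff_snd)).add
      (contDiff_fst.smul contDiff_const)
  · funext i x
    simp
  · exact hcl' t
  · -- positivity
    intro x
    rw [posDef_iff]
    intro a ha
    obtain ⟨r, hr, hr0, -⟩ := he a
    have hcomb : ∀ s : Fin 3 → ℝ, ∀ (v : Fin 3 → V), ∑ i, (s 0 • e + s 1 • c 0 + s 2 • c 1) i • v i =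
        s 0 • (∑ i, e i • v i) + s 1 • (∑ i, c 0 i • v i) + s 2 • (∑ i, c 1 i • v i) := by
      intro s v
      rw [Finset.smul_sum, Finset.smul_sum, Finset.smul_sum, ← Finset.sum_add_distrib,
        ← Finset.sum_add_distrib]
      refine Finset.sum_congr rfl fun i _ => ?_
      rw [smul_smul, smul_smul, smul_smul, ← add_smul, ← add_smul]
      rfl
    have hconst : ∀ m : Fin 2, ∑ i, c m i • bar (w i) = ∑ i, c m i • w i x := by
      intro m
      rw [← bar_comb hcl]
      have e1 : (fun y => ∑ i, c m i • w i y) = fun _ => ∑ i, c m i • w i x := by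
        funext y
        exact hc2 m y x
      rw [e1, bar_const]
    have hlin : ∀ s : Fin 3 → ℝ, ∑ i, s i • ((1 - t) • w i x + t • bar (w i)) =
        (1 - t) • (∑ i, s i • w i x) + t • (∑ i, s i • bar (w i)) := by
      intro s
      rw [Finset.smul_sum, Finset.smul_sum, ← Finset.sum_add_distrib]
      refine Finset.sum_congr rfl fun i _ => ?_
      rw [smul_add, smul_comm (s i) (1 - t), smul_comm (s i) t]
    have hc' : ∀ m : Fin 2, ∑ i, c m i • ((1 - t) • w i x + t • bar (w i)) =
        ∑ i, c m i • w i x := by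
      intro m
      rw [hlin, hconst m, ← add_smul]
      simp
    rw [hr, hcomb r, hlin e, hc' 0, hc' 1]
    refine pos_segment (fun y => ∑ i, e i • w i y) (isClosedForm_comb hcl e).smooth.continuous
      (∑ i, c 0 i • w i x) (∑ i, c 1 i • w i x) (∑ i, e i • bar (w i)) ?_ ?_ t ht x r (hr0 ha)
    · intro y s hs
      have h1 := (posDef_iff fun i => w i y).1 (hpos y) (s 0 • e + s 1 • c 0 + s 2 • c 1)
        ((he 0).choose_spec.2.2 s hs)
      rw [hcomb s, hc2 0 y x, hc2 1 y x] at h1
      exact h1
    · intro l hl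
      rw [← bar_comb hcl, ← mean_lin l (isClosedForm_comb hcl e) 0]
      exact mean_pos (sp_lin l (isClosedForm_comb hcl e)) hl 0
  · intro i
    obtain ⟨α, hα, hα2⟩ := cohomologous_mean (hcl i)
    refine ⟨fun k y => (-t) * α k y, fun k => (hα k).const_mul _, fun x j k => ?_⟩
    have hpd : ∀ j k, Vale.Agent.P247.pd j (fun y => (-t) * α k y) x =
        (-t) * Vale.Agent.P247.pd j (α k) x := by
      intro j k
      unfold Vale.Agent.P247.pd
      rw [fderiv_const_mul ((hα k).smooth.differentiable (by simp)).differentiableAt]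
      simp
    rw [hpd, hpd, ← mul_sub, ← hα2 x j k]
    simp only [Pi.add_apply, Pi.smul_apply, smul_eq_mul, bar]
    rw [mean_const ((hcl i).sp j k) 0 x]
    ring
  · intro i
    exact hcl' 1 i
  · refine ⟨fun _ => 1 / 2, contDiff_const, fun _ => by norm_num, fun i j x => ?_⟩
    have e1 : ∀ i, (1 - (1 : ℝ)) • w i x + (1 : ℝ) • bar (w i) = bar (w i) := by
      intro i
      simp
    simp only [e1]
    rw [← wedge_bar (hcl i) (hcl j), hn i j]
    norm_num

end Vale.Agent.P247
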