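import Vale.Agent.P247.Exact
import Vale.Agent.P247.Main
import Vale.Agent.P247.CircDefs

/-!
P247: averages over circles: closedness, invariance, cohomology class and mean.
-/

open scoped ContDiff

namespace Vale.Agent.P247

namespace Circ1

theorem cf {F : X → V} (hF : IsClosedForm F) : Exact.CF (fun j k y => F y j k) :=
  ⟨fun j k => hF.sp j k, fun j k x => hF.anti x j k, fun i j k x => hF.closed i j k x⟩

theorem pd0_M {f : X → ℝ} (hf : SP f) (x : X) : Vale.Agent.P247.pd 0 (Mop 0 f) x = 0 := by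
  rw [pd_M hf, M_pd_self hf]

theorem M_inv {f : X → ℝ} (hf : SP f) (x : X) (s : ℝ) :
    Mop 0 f (x + s • Pi.single 0 1) = Mop 0 f x := by
  have h1 : ∀ s : ℝ, HasDerivAt (fun s : ℝ => Mop 0 f (x + s • Pi.single 0 1)) 0 s := by
    intro s
    have h := Calc2.hasDeriv_line (hf.M 0) 0 x s
    rwa [pd0_M hf] at h
  have h2 := is_const_of_deriv_eq_zero (fun s => (h1 s).differentiableAt)
    (fun s => (h1 s).deriv) s 0
  simpa using h2

theorem M_M {f : X → ℝ} (hf : SP f) : Mop 0 (Mop 0 f) = Mop 0 f := by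
  funext x
  have h : ∀ s : ℝ, Mop 0 f (x + s • Pi.single 0 1) = Mop 0 f x := M_inv hf x
  conv_lhs => unfold Mop
  show ∫ s in (0 : ℝ)..1, Mop 0 f (x + s • Pi.single 0 1) = Mop 0 f x
  simp only [h]
  simp

end Circ1

theorem isClosedForm_circ {F : X → V} (hF : IsClosedForm F) : IsClosedForm (circ F) where
  smooth := contDiff_pi.2 fun j => contDiff_pi.2 fun k =>
    (((Circ1.cf hF).M 0).sp j k).smooth
  per i x := by
    funext j k
    exact (((Circ1.cf hF).M 0).sp j k).per i x
  anti x j k := ((Circ1.cf hF).M 0).anti j k x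
  closed i j k x := ((Circ1.cf hF).M 0).closed i j k x

theorem circ_inv {F : X → V} (hF : IsClosedForm F) (x : X) (s : ℝ) :
    circ F (x + s • Pi.single 0 1) = circ F x := by
  funext j k
  exact Circ1.M_inv (hF.sp j k) x s

theorem coh_circ {F : X → V} (hF : IsClosedForm F) : Cohomologous F (circ F) := by
  refine ⟨fun k => Kop 0 (fun y => F y 0 k), fun k => (hF.sp 0 k).K 0, fun x j k => ?_⟩
  exact (Circ1.cf hF).step 0 j k x

theorem coh_circ' {F : X → V} (hF : IsClosedForm F) : Cohomologous (circ F) F := by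
  obtain ⟨α, hα, hα2⟩ := coh_circ hF
  refine ⟨fun k y => -α k y, fun k => (hα k).neg, fun x j k => ?_⟩
  have h := hα2 x j k
  have e : ∀ j k, Vale.Agent.P247.pd j (fun y => -α k y) x = -Vale.Agent.P247.pd j (α k) x :=
    fun j k => pd_neg (hα k) j x
  rw [e, e]
  linarith

theorem bar_circ {F : X → V} (hF : IsClosedForm F) : bar (circ F) = bar F := by
  funext j k
  have h : Mop 0 (fun y => circ F y j k) = Mop 0 (fun y => F y j k) := Circ1.M_M (hF.sp j k)
  show mean (fun y => circ F y j k) 0 = mean (fun y => F y j k) 0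
  unfold mean
  rw [h]

theorem pd0_circ {F : X → V} (hF : IsClosedForm F) (j k : Fin 4) (x : X) :
    pd 0 (fun y => circ F y j k) x = 0 :=
  Circ1.pd0_M (hF.sp j k) x

end Vale.Agent.P247
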