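import Vale.Agent.P247.Main

/-!
P247: the linear path from a triple to its mean.
-/

open scoped ContDiff Matrix
open intervalIntegral

namespace Vale.Agent.P247

theorem wedge_line (p q : V) (s t : ℝ) : wedge (s • p + t • q) (s • p + t • q) =
    s ^ 2 * wedge p p + 2 * s * t * wedge p q + t ^ 2 * wedge q q := by
  simp only [wedge, Pi.add_apply, Pi.smul_apply, smul_eq_mul]
  ring

/-- positivity on a segment between two positive vectors -/
theorem segment_pos_iff {p q : V} (hp : 0 < wedge p p) (hq : 0 < wedge q q) :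
    (∀ t ∈ Set.Icc (0 : ℝ) 1, 0 < wedge ((1 - t) • p + t • q) ((1 - t) • p + t • q)) ↔
      -(Real.sqrt (wedge p p) * Real.sqrt (wedge q q)) < wedge p q := by
  have hA : 0 < Real.sqrt (wedge p p) := Real.sqrt_pos.2 hp
  have hC : 0 < Real.sqrt (wedge q q) := Real.sqrt_pos.2 hq
  have hA2 : Real.sqrt (wedge p p) ^ 2 = wedge p p := Real.sq_sqrt hp.le
  have hC2 : Real.sqrt (wedge q q) ^ 2 = wedge q q := Real.sq_sqrt hq.le
  set a := Real.sqrt (wedge p p)
  set c := Real.sqrt (wedge q q)
  have key : ∀ t : ℝ, wedge ((1 - t) • p + t • q) ((1 - t) • p + t • q) =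
      ((1 - t) * a - t * c) ^ 2 + 2 * (1 - t) * t * (wedge p q + a * c) := by
    intro t
    rw [wedge_line, ← hA2, ← hC2]
    ring
  constructor
  · intro h
    have hs : 0 < a + c := add_pos hA hC
    have ht : a / (a + c) ∈ Set.Icc (0 : ℝ) 1 :=
      ⟨by positivity, by rw [div_le_one hs]; linarith⟩
    have h1 := h _ ht
    rw [key] at h1
    have e1 : 1 - a / (a + c) = c / (a + c) := by
      field_simp
      ring
    rw [e1] at h1
    have e2 : c / (a + c) * a - a / (a + c) * c = 0 := by ring
    rw [e2] at h1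
    have h3 : 0 < 2 * (c / (a + c)) * (a / (a + c)) := by positivity
    have h4 : 0 < wedge p q + a * c := by
      by_contra hneg
      have := mul_nonpos_of_nonneg_of_nonpos h3.le (not_lt.1 hneg)
      nlinarith
    linarith
  · intro h t ht
    rw [key]
    have h4 : 0 < wedge p q + a * c := by linarith
    rcases eq_or_lt_of_le ht.1 with h0 | h0
    · rw [← h0]
      nlinarith
    · rcases eq_or_lt_of_le ht.2 with h1 | h1
      · rw [h1]
        nlinarith
      · have : 0 < 2 * (1 - t) * t * (wedge p q + a * c) := by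
          have : 0 < 1 - t := by linarith
          positivity
        nlinarith [sq_nonneg ((1 - t) * a - t * c)]

/-- if the linear path to the mean is positive then it is the deformation sought -/
theorem deform_of_path (w : Fin 3 → X → V) (h : IsHypersymplectic w) (hn : IsNormalized w)
    (hp : ∀ t ∈ Set.Icc (0 : ℝ) 1, ∀ x, (Matrix.of fun i j =>
      wedge ((1 - t) • w i x + t • bar (w i)) ((1 - t) • w j x + t • bar (w j)) :
        Matrix (Fin 3) (Fin 3) ℝ).PosDef) : HasHyperkahlerDeformation w := by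
  obtain ⟨hcl, hpos⟩ := h
  have hcl' : ∀ (t : ℝ) (i : Fin 3), IsClosedForm fun x => (1 - t) • w i x + t • bar (w i) :=
    fun t i =>
    isClosedForm_segment (hcl i) (bar_anti (hcl i)) t
  refine ⟨fun t i x => (1 - t) • w i x + t • bar (w i), fun i => ?_, ?_,
    fun t ht => ⟨⟨hcl' t, hp t ht⟩, ?_⟩, ?_, ?_⟩
  · exact ((contDiff_const.sub contDiff_fst).smul ((hcl i).smooth.comp contDiff_snd)).add
      (contDiff_fst.smul contDiff_const)
  · funext i x
    simp
  · intro i
    obtain ⟨α, hα, hα2⟩ := cohomologous_mean (hcl i)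
    refine ⟨fun k y => (-t) * α k y, fun k => (hα k).const_mul _, fun x j k => ?_⟩
    have hpd : ∀ j k, Vale.Agent.P247.pd j (fun y => (-t) * α k y) x =
        (-t) * Vale.Agent.P247.pd j (α k) x := by
      intro j k
      unfold Vale.Agent.P247.pd
      rw [fderiv_const_mul ((hα k).smooth.differentiable (by simp)).differentiableAt]
      simp
    rw [hpd, hpd, ← mul_sub, ← hα2 x j k]
    simp only [Pi.add_apply, Pi.smul_apply, smul_eq_mul, bar]
    rw [mean_const ((hcl i).sp j k) 0 x]
    ring
  · intro i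
    exact hcl' 1 i
  · refine ⟨fun _ => 1 / 2, contDiff_const, fun _ => by norm_num, fun i j x => ?_⟩
    have e1 : ∀ i, (1 - (1 : ℝ)) • w i x + (1 : ℝ) • bar (w i) = bar (w i) := by
      intro i
      simp
    simp only [e1]
    rw [← wedge_bar (hcl i) (hcl j), hn i j]
    norm_num

theorem wedge_sum (a : Fin 3 → ℝ) (u v : Fin 3 → V) :
    wedge (∑ i, a i • u i) (∑ j, a j • v j) = ∑ i, ∑ j, a i * a j * wedge (u i) (v j) := by
  simp only [Fin.sum_univ_three, wedge, Pi.add_apply, Pi.smul_apply, smul_eq_mul]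
  ring

/-- the mean triple is orthonormal -/
theorem wedge_bar_comb (w : Fin 3 → X → V) (hcl : ∀ i, IsClosedForm (w i)) (hn : IsNormalized w)
    (a : Fin 3 → ℝ) : wedge (∑ i, a i • bar (w i)) (∑ i, a i • bar (w i)) = ∑ i, a i ^ 2 := by
  rw [wedge_sum]
  refine Finset.sum_congr rfl fun i _ => ?_
  have e : ∀ j, a i * a j * wedge (bar (w i)) (bar (w j)) = if i = j then a i ^ 2 else 0 := by
    intro j
    rw [← wedge_bar (hcl i) (hcl j), hn i j]
    split_ifs with hij
    · rw [hij]; ring
    · ring
  simp only [e]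
  simp

/-- the mean two-form -/
noncomputable def meanForm (F : X → V) : V := fun j k => torusInt fun x => F x j k

theorem meanForm_eq (F : X → V) : meanForm F = bar F := by
  funext j k
  exact torusInt_eq _

/-- The pairing condition: for every nonzero constant vector `a` and at every point `x`, the form
`w_a = ∑ aᵢ wᵢ` and its mean satisfy `w_a(x) ∧ mean w_a > - √(w_a(x)²) √((mean w_a)²)`. -/
def PairCondition (w : Fin 3 → X → V) : Prop :=
  ∀ a : Fin 3 → ℝ, a ≠ 0 → ∀ x,
    -(Real.sqrt (wedge (∑ i, a i • w i x) (∑ i, a i • w i x)) * Real.sqrt (∑ i, a i ^ 2)) <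
      wedge (∑ i, a i • w i x) (∑ i, a i • meanForm (w i))

theorem path_comb (w : Fin 3 → X → V) (a : Fin 3 → ℝ) (t : ℝ) (x : X) :
    ∑ i, a i • ((1 - t) • w i x + t • bar (w i)) =
      (1 - t) • (∑ i, a i • w i x) + t • (∑ i, a i • bar (w i)) := by
  rw [Finset.smul_sum, Finset.smul_sum, ← Finset.sum_add_distrib]
  refine Finset.sum_congr rfl fun i _ => ?_
  rw [smul_add, smul_comm (a i) (1 - t), smul_comm (a i) t]

theorem sumsq_pos {a : Fin 3 → ℝ} (ha : a ≠ 0) : 0 < ∑ i, a i ^ 2 := by
  rcases lt_or_eq_of_le (Finset.sum_nonneg fun i _ => sq_nonneg (a i)) with h | h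
  · exact h
  · exfalso
    apply ha
    funext i
    have := (Finset.sum_eq_zero_iff_of_nonneg fun i _ => sq_nonneg (a i)).1 h.symm i
      (Finset.mem_univ _)
    exact pow_eq_zero_iff (two_ne_zero) |>.1 this

theorem pair_iff (w : Fin 3 → X → V) (h : IsHypersymplectic w) (hn : IsNormalized w) :
    PairCondition w ↔ ∀ t ∈ Set.Icc (0 : ℝ) 1,
      IsHypersymplectic fun i x => (1 - t) • w i x + t • meanForm (w i) := by
  have e0 : ∀ i, meanForm (w i) = bar (w i) := fun i => meanForm_eq _
  simp only [PairCondition, e0]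
  obtain ⟨hcl, hpos⟩ := h
  have hpos' := fun x => (posDef_iff fun i => w i x).1 (hpos x)
  constructor
  · intro hp t ht
    refine ⟨fun i => isClosedForm_segment (hcl i) (bar_anti (hcl i)) t, fun x => ?_⟩
    rw [posDef_iff]
    intro a ha
    rw [path_comb]
    refine (segment_pos_iff (hpos' x a ha) ?_).2 ?_ t ht
    · rw [wedge_bar_comb w hcl hn]
      exact sumsq_pos ha
    · rw [wedge_bar_comb w hcl hn]
      exact hp a ha x
  · intro hp a ha x
    rw [← wedge_bar_comb w hcl hn a]
    refine (segment_pos_iff (hpos' x a ha) ?_).1 fun t ht => ?_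
    · rw [wedge_bar_comb w hcl hn]
      exact sumsq_pos ha
    · have h1 := (posDef_iff fun i => (1 - t) • w i x + t • bar (w i)).1 ((hp t ht).2 x) a ha
      rw [path_comb] at h1
      exact h1

theorem deform_of_pair (w : Fin 3 → X → V) (h : IsHypersymplectic w) (hn : IsNormalized w)
    (hp : PairCondition w) : HasHyperkahlerDeformation w := by
  refine deform_of_path w h hn fun t ht x => ?_
  have h1 := ((pair_iff w h hn).1 hp t ht).2 x
  have e0 : ∀ i, meanForm (w i) = bar (w i) := fun i => meanForm_eq _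
  simp only [e0] at h1
  exact h1

end Vale.Agent.P247
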