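import Vale.Agent.P247.Circ1
import Vale.Agent.P247.Linear
import Vale.Agent.P247.MoveDefs

/-! P247: the linear path to the circle average. -/

open scoped ContDiff Matrix
open intervalIntegral

namespace Vale.Agent.P247

namespace Circ2

theorem lin_circ (l : V →ₗ[ℝ] ℝ) {F : X → V} (hF : IsClosedForm F) (x : X) :
    l (circ F x) = ∫ s in (0 : ℝ)..1, l (F (x + s • Pi.single 0 1)) := by
  have e : ∀ y, l (F y) = ∑ p : Fin 4 × Fin 4,
      l (Pi.single p.1 (Pi.single p.2 1)) * F y p.1 p.2 := fun y => lin_expand l (F y)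
  rw [lin_expand l (circ F x)]
  simp only [e]
  rw [intervalIntegral.integral_finsetSum]
  · refine Finset.sum_congr rfl fun p _ => ?_
    rw [intervalIntegral.integral_const_mul]
    rfl
  · intro p _
    exact (continuous_const.mul (Calc2.cont_line (hF.sp p.1 p.2) 0 x)).intervalIntegrable _ _

theorem circ_comb {w : Fin 3 → X → V} (hw : ∀ i, IsClosedForm (w i)) (a : Fin 3 → ℝ) (x : X) :
    circ (fun y => ∑ i, a i • w i y) x = ∑ i, a i • circ (w i) x := by
  funext j k
  simp only [circ, Mop, Finset.sum_apply, Pi.smul_apply, smul_eq_mul]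
  rw [intervalIntegral.integral_finsetSum]
  · refine Finset.sum_congr rfl fun p _ => ?_
    rw [intervalIntegral.integral_const_mul]
  · intro p _
    exact (continuous_const.mul (Calc2.cont_line ((hw p).sp j k) 0 x)).intervalIntegrable _ _

theorem cont_lin_line (l : V →ₗ[ℝ] ℝ) {F : X → V} (hF : IsClosedForm F) (x : X) :
    Continuous fun s : ℝ => l (F (x + s • Pi.single 0 1)) :=
  Calc2.cont_line (sp_lin l hF) 0 x

variable (w : Fin 3 → X → V)

/-- mixed positivity -/
theorem mixed (h : IsHypersymplectic w) (hp : CirclePositive w) (a : Fin 3 → ℝ) (ha : a ≠ 0)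
    (x : X) : 0 < wedge (∑ i, a i • w i x) (∑ i, a i • circ (w i) x) := by
  have hF := isClosedForm_comb h.1 a
  rw [← circ_comb h.1 a x, ← Bl_apply, lin_circ _ hF x]
  exact intervalIntegral.intervalIntegral_pos_of_pos
    ((cont_lin_line (Bl (∑ i, a i • w i x)) hF x).intervalIntegrable _ _)
    (fun s => hp a ha x s) one_pos

theorem square (h : IsHypersymplectic w) (hp : CirclePositive w) (a : Fin 3 → ℝ) (ha : a ≠ 0)
    (x : X) : 0 < wedge (∑ i, a i • circ (w i) x) (∑ i, a i • circ (w i) x) := by
  have hF := isClosedForm_comb h.1 a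
  have key : ∀ s : ℝ, 0 < Bl (∑ i, a i • circ (w i) x)
      (∑ i, a i • w i (x + s • Pi.single 0 1)) := by
    intro s
    have h1 := mixed w h hp a ha (x + s • Pi.single 0 1)
    simp only [circ_inv (h.1 _) x s] at h1
    rw [Bl_comm, Bl_apply]
    exact h1
  have h2 : wedge (∑ i, a i • circ (w i) x) (∑ i, a i • circ (w i) x) =
      ∫ s in (0 : ℝ)..1, Bl (∑ i, a i • circ (w i) x)
        (∑ i, a i • w i (x + s • Pi.single 0 1)) := by
    rw [← lin_circ (Bl (∑ i, a i • circ (w i) x)) hF x, circ_comb h.1 a x, Bl_apply]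
  rw [h2]
  exact intervalIntegral.intervalIntegral_pos_of_pos
    ((cont_lin_line (Bl (∑ i, a i • circ (w i) x)) hF x).intervalIntegrable _ _) key one_pos

theorem closed_two {F H : X → V} (hF : IsClosedForm F) (hH : IsClosedForm H) (t : ℝ) :
    IsClosedForm fun x => (1 - t) • F x + t • H x := by
  have h1 : ∀ i, IsClosedForm ((![F, H, F] : Fin 3 → X → V) i) := by
    intro i
    fin_cases i
    · exact hF
    · exact hH
    · exact hF
  have h2 := isClosedForm_comb h1 ![1 - t, t, 0]
  have e : (fun x => ∑ i, (![1 - t, t, 0] : Fin 3 → ℝ) i • (![F, H, F] : Fin 3 → X → V) i x) =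
      fun x => (1 - t) • F x + t • H x := by
    funext x
    simp [Fin.sum_univ_three]
  rw [e] at h2
  exact h2

end Circ2

open Circ2

theorem circ_hyp (w : Fin 3 → X → V) (h : IsHypersymplectic w) (hp : CirclePositive w) :
    IsHypersymplectic (fun i => circ (w i)) := by
  refine ⟨fun i => isClosedForm_circ (h.1 i), fun x => ?_⟩
  rw [posDef_iff]
  exact fun a ha => square w h hp a ha x

theorem circ_path (w : Fin 3 → X → V) (h : IsHypersymplectic w) (hp : CirclePositive w) :
    ∀ t ∈ Set.Icc (0:ℝ) 1, IsHypersymplectic fun i x => (1 - t) • w i x + t • circ (w i) x := by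
  intro t ht
  refine ⟨fun i => closed_two (h.1 i) (isClosedForm_circ (h.1 i)) t, fun x => ?_⟩
  rw [posDef_iff]
  intro a ha
  have e : ∑ i, a i • ((1 - t) • w i x + t • circ (w i) x) =
      (1 - t) • (∑ i, a i • w i x) + t • (∑ i, a i • circ (w i) x) := by
    rw [Finset.smul_sum, Finset.smul_sum, ← Finset.sum_add_distrib]
    refine Finset.sum_congr rfl fun i _ => ?_
    rw [smul_add, smul_comm (a i) (1 - t), smul_comm (a i) t]
  rw [e, wedge_line]
  have h1 := (posDef_iff fun i => w i x).1 (h.2 x) a ha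
  have h2 := mixed w h hp a ha x
  have h3 := square w h hp a ha x
  rcases eq_or_lt_of_le ht.1 with h0 | h0
  · rw [← h0]
    simpa using h1
  · have h4 : 0 < t ^ 2 * wedge (∑ i, a i • circ (w i) x) (∑ i, a i • circ (w i) x) := by
      positivity
    have h5 : 0 ≤ 1 - t := by linarith [ht.2]
    have h6 : 0 ≤ (1 - t) ^ 2 * wedge (∑ i, a i • w i x) (∑ i, a i • w i x) := by positivity
    have h7 : 0 ≤ 2 * (1 - t) * t * wedge (∑ i, a i • w i x) (∑ i, a i • circ (w i) x) := by
      positivity
    linarith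

theorem joined_circ (w : Fin 3 → X → V) (h : IsHypersymplectic w) (hp : CirclePositive w) :
    Joined w (fun i => circ (w i)) := by
  refine ⟨fun t i x => (1 - t) • w i x + t • circ (w i) x, fun i => ?_, ?_, ?_,
    fun t ht => ⟨circ_path w h hp t ht, fun i => ?_⟩⟩
  · exact ((contDiff_const.sub contDiff_fst).smul ((h.1 i).smooth.comp contDiff_snd)).add
      (contDiff_fst.smul ((isClosedForm_circ (h.1 i)).smooth.comp contDiff_snd))
  · funext i x
    simp
  · funext i x
    simp
  · obtain ⟨α, hα, hα2⟩ := coh_circ' (h.1 i)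
    refine ⟨fun k y => t * α k y, fun k => (hα k).const_mul _, fun x j k => ?_⟩
    have hpd : ∀ j k, Vale.Agent.P247.pd j (fun y => t * α k y) x =
        t * Vale.Agent.P247.pd j (α k) x := by
      intro j k
      unfold Vale.Agent.P247.pd
      rw [fderiv_const_mul ((hα k).smooth.differentiable (by simp)).differentiableAt]
      simp
    rw [hpd, hpd, ← mul_sub, ← hα2 x j k]
    simp only [Pi.add_apply, Pi.smul_apply, smul_eq_mul]
    ring

end Vale.Agent.P247
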