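import Vale.Agent.P247.InvMain
import Vale.Agent.P247.Circ2

/-!
P247: deformation of triples which are positive along the circles of one direction.
-/

open scoped ContDiff Matrix
open intervalIntegral

namespace Vale.Agent.P247

/-- The circle average of the triple is pointwise positive definite and at every point `x` and for
every `a ≠ 0` the form `w_a = ∑ aᵢ wᵢ` and its circle average `c_a` satisfy
`w_a(x) ∧ c_a(x) > - √(w_a(x)²) √(c_a(x)²)`. -/
def CirclePair (w : Fin 3 → X → V) : Prop :=
  (∀ x, (Matrix.of fun i j => wedge (circ (w i) x) (circ (w j) x) :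
    Matrix (Fin 3) (Fin 3) ℝ).PosDef) ∧
  ∀ a : Fin 3 → ℝ, a ≠ 0 → ∀ x,
    -(Real.sqrt (wedge (∑ i, a i • w i x) (∑ i, a i • w i x)) *
      Real.sqrt (wedge (∑ i, a i • circ (w i) x) (∑ i, a i • circ (w i) x))) <
        wedge (∑ i, a i • w i x) (∑ i, a i • circ (w i) x)

theorem deform_of_joined_circ (w : Fin 3 → X → V) (h : IsHypersymplectic w) (hn : IsNormalized w)
    (hc : IsHypersymplectic fun i => circ (w i)) (hj : Joined w fun i => circ (w i)) :
    HasHyperkahlerDeformation w := by
  obtain ⟨θ, hθ, hj2⟩ := inv_joined (fun i => circ (w i)) hc (fun i j => by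
    rw [bar_circ (h.1 i), bar_circ (h.1 j), ← wedge_bar (h.1 i) (h.1 j)]
    exact hn i j) fun m j k x => pd0_circ (h.1 m) j k x
  exact (deformation_iff_chain w h).2
    ⟨θ, hθ, (chain_of_joined hj).trans (chain_of_joined hj2)⟩

theorem deform_of_circlePositive (w : Fin 3 → X → V) (h : IsHypersymplectic w)
    (hn : IsNormalized w) (hp : CirclePositive w) : HasHyperkahlerDeformation w :=
  deform_of_joined_circ w h hn (circ_hyp w h hp) (joined_circ w h hp)

theorem deform_of_circlePair (w : Fin 3 → X → V) (h : IsHypersymplectic w)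
    (hn : IsNormalized w) (hp : CirclePair w) : HasHyperkahlerDeformation w := by
  obtain ⟨hp1, hp2⟩ := hp
  refine deform_of_joined_circ w h hn ⟨fun i => isClosedForm_circ (h.1 i), hp1⟩
    (joined_linear h.1 (fun i => isClosedForm_circ (h.1 i)) (fun i => coh_circ (h.1 i))
      fun t ht x a ha => ?_)
  exact (segment_pos_iff ((posDef_iff fun i => w i x).1 (h.2 x) a ha)
    ((posDef_iff fun i => circ (w i) x).1 (hp1 x) a ha)).2 (hp2 a ha x) t ht

end Vale.Agent.P247
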