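import Vale.Agent.P247.Main

/-!
P247: triples whose forms are orthogonal to the means of the other forms.
-/

open scoped ContDiff Matrix
open intervalIntegral

namespace Vale.Agent.P247

theorem orth_pos (w : Fin 3 → X → V) (h : IsHypersymplectic w) (hn : IsNormalized w)
    (ho : ∀ i j x, i ≠ j → wedge (w i x) (bar (w j)) = 0) :
    ∀ i x, 0 < wedge (w i x) (bar (w i)) := by
  obtain ⟨hcl, hpos⟩ := h
  intro i
  have hbar : ∀ j k, Bl (bar (w j)) (bar (w k)) = if j = k then 1 else 0 := by
    intro j k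
    rw [Bl_apply, ← wedge_bar (hcl j) (hcl k)]
    exact hn j k
  have hFF : ∀ x, 0 < Bl (w i x) (w i x) := by
    intro x
    have h1 := (posDef_iff fun j => w j x).1 (hpos x) (Pi.single i 1) (by
      intro h0
      have := congrFun h0 i
      simp at this)
    have e : ∑ j, (Pi.single i (1 : ℝ) : Fin 3 → ℝ) j • w j x = w i x := by
      rw [Finset.sum_eq_single i]
      · simp
      · intro j _ hj
        simp [hj]
      · intro hc
        exact absurd (Finset.mem_univ i) hc
    rw [e] at h1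
    exact h1
  have hne : ∀ x, Bl (bar (w i)) (w i x) ≠ 0 := by
    intro x h0
    have horth : ∀ j, Bl (w i x) (bar (w j)) = 0 := by
      intro j
      by_cases hj : i = j
      · subst hj
        rw [Bl_comm]
        exact h0
      · exact ho i j x hj
    obtain ⟨a, ha, hle⟩ := exists_wedge_nonpos ![w i x, bar (w 0), bar (w 1), bar (w 2)]
    rw [← Bl_apply] at hle
    have horth' : ∀ j, Bl (bar (w j)) (w i x) = 0 := fun j => by rw [Bl_comm]; exact horth j
    have e : Bl (∑ j, a j • (![w i x, bar (w 0), bar (w 1), bar (w 2)] : Fin 4 → V) j)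
        (∑ j, a j • (![w i x, bar (w 0), bar (w 1), bar (w 2)] : Fin 4 → V) j) =
        a 0 ^ 2 * Bl (w i x) (w i x) + a 1 ^ 2 + a 2 ^ 2 + a 3 ^ 2 := by
      simp only [Fin.sum_univ_four, map_add, map_smul, LinearMap.add_apply, LinearMap.smul_apply,
        smul_eq_mul, Matrix.cons_val_zero, Matrix.cons_val_one, Matrix.cons_val]
      simp only [horth, horth', hbar]
      simp
      ring
    rw [e] at hle
    have h1 := hFF x
    have h2 : a 0 ^ 2 * Bl (w i x) (w i x) = 0 ∧ a 1 ^ 2 = 0 ∧ a 2 ^ 2 = 0 ∧ a 3 ^ 2 = 0 := by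
      have k0 : 0 ≤ a 0 ^ 2 * Bl (w i x) (w i x) := mul_nonneg (sq_nonneg _) h1.le
      have k1 := sq_nonneg (a 1)
      have k2 := sq_nonneg (a 2)
      have k3 := sq_nonneg (a 3)
      refine ⟨by linarith, by linarith, by linarith, by linarith⟩
    apply ha
    funext j
    have k0 : a 0 = 0 := by
      rcases mul_eq_zero.1 h2.1 with h3 | h3
      · exact pow_eq_zero_iff (two_ne_zero) |>.1 h3
      · exact absurd h3 h1.ne'
    have k1 : a 1 = 0 := pow_eq_zero_iff (two_ne_zero) |>.1 h2.2.1
    have k2 : a 2 = 0 := pow_eq_zero_iff (two_ne_zero) |>.1 h2.2.2.1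
    have k3 : a 3 = 0 := pow_eq_zero_iff (two_ne_zero) |>.1 h2.2.2.2
    fin_cases j
    · exact k0
    · exact k1
    · exact k2
    · exact k3
  have hsp : SP fun y => Bl (bar (w i)) (w i y) := sp_lin (Bl (bar (w i))) (hcl i)
  have hmean : mean (fun y => Bl (bar (w i)) (w i y)) 0 = 1 := by
    rw [mean_lin (Bl (bar (w i))) (hcl i) 0, hbar, if_pos rfl]
  intro x
  rw [← Bl_apply, Bl_comm]
  by_contra hc
  rw [not_lt] at hc
  have hneg : ∀ y, Bl (bar (w i)) (w i y) < 0 := by
    intro y
    by_contra hy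
    rw [not_lt] at hy
    obtain ⟨z, hz⟩ := mem_range_of_exists_le_of_exists_ge hsp.smooth.continuous ⟨x, hc⟩ ⟨y, hy⟩
    exact hne z hz
  have h1 := mean_pos (hsp.const_mul (-1)) (fun y => by have := hneg y; linarith) 0
  rw [mean_smul, hmean] at h1
  linarith

end Vale.Agent.P247
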