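import Vale.Agent.P247.Defs

/-! P247: a symmetric matrix field without kernel which is positive definite at one point is positive
definite everywhere. -/

namespace Vale.Agent.P247

namespace Sym

/-- the quadratic form -/
def qf (M : Fin 3 → Fin 3 → ℝ) (a : Fin 3 → ℝ) : ℝ := ∑ i, ∑ j, a i * a j * M i j

theorem qf_smul (M : Fin 3 → Fin 3 → ℝ) (c : ℝ) (a : Fin 3 → ℝ) :
    qf M (c • a) = c ^ 2 * qf M a := by
  simp only [qf, Fin.sum_univ_three, Pi.smul_apply, smul_eq_mul]
  ring

theorem qf_add (M : Fin 3 → Fin 3 → ℝ) (hs : ∀ i j, M i j = M j i) (a b : Fin 3 → ℝ) (e : ℝ) :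
    qf M (a + e • b) = qf M a + 2 * e * (∑ j, b j * ∑ i, a i * M i j) + e ^ 2 * qf M b := by
  simp only [qf, Fin.sum_univ_three, Pi.add_apply, Pi.smul_apply, smul_eq_mul]
  rw [hs 1 0, hs 2 0, hs 2 1]
  ring

end Sym

theorem sym_pos (P : X → Fin 3 → Fin 3 → ℝ) (hc : ∀ i j, Continuous fun x => P x i j)
    (hs : ∀ x i j, P x i j = P x j i)
    (hk : ∀ x (a : Fin 3 → ℝ), (∀ j, ∑ i, a i * P x i j = 0) → a = 0) (x0 : X)
    (h0 : ∀ a : Fin 3 → ℝ, a ≠ 0 → 0 < ∑ i, ∑ j, a i * a j * P x0 i j) :
    ∀ x (a : Fin 3 → ℝ), a ≠ 0 → 0 < ∑ i, ∑ j, a i * a j * P x i j := by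
  intro x
  set g : ℝ → X := fun s => x0 + s • (x - x0) with hg
  have hgc : Continuous g := by
    rw [hg]
    fun_prop
  have hg0 : g 0 = x0 := by simp [hg]
  have hg1 : g 1 = x := by simp [hg]
  -- the form on the segment times the unit sphere of the sup norm
  set f : ℝ × (Fin 3 → ℝ) → ℝ := fun p => Sym.qf (P (g p.1)) p.2 with hf
  have hfc : Continuous f := by
    rw [hf]
    simp only [Sym.qf]
    refine continuous_finsetSum _ fun i _ => continuous_finsetSum _ fun j _ => ?_
    refine Continuous.mul ?_ ?_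
    · fun_prop
    · exact (hc i j).comp (hgc.comp continuous_fst)
  have hS : IsCompact (Metric.sphere (0 : Fin 3 → ℝ) 1) := isCompact_sphere _ _
  set K : Set (ℝ × (Fin 3 → ℝ)) :=
    (Set.Icc (0 : ℝ) 1 ×ˢ Metric.sphere (0 : Fin 3 → ℝ) 1) ∩ {p | f p ≤ 0} with hK
  have hKc : IsCompact K :=
    (isCompact_Icc.prod hS).inter_right (isClosed_le hfc continuous_const)
  have hne0 : ∀ a ∈ Metric.sphere (0 : Fin 3 → ℝ) 1, a ≠ 0 := by
    intro a ha h
    rw [h] at ha
    simp at ha
  -- homogeneity: positivity on the sphere is positivity everywhere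
  have hom : ∀ s : ℝ, (∀ a ∈ Metric.sphere (0 : Fin 3 → ℝ) 1, 0 < f (s, a)) →
      ∀ a : Fin 3 → ℝ, a ≠ 0 → 0 < f (s, a) := by
    intro s h a ha
    have hn : 0 < ‖a‖ := norm_pos_iff.2 ha
    have h1 := h ((‖a‖)⁻¹ • a) (by
      rw [mem_sphere_zero_iff_norm, norm_smul, norm_inv, norm_norm]
      field_simp)
    change 0 < Sym.qf (P (g s)) ((‖a‖)⁻¹ • a) at h1
    rw [Sym.qf_smul] at h1
    exact (mul_pos_iff_of_pos_left (by positivity)).1 h1
  have hempty : K = ∅ := by
    by_contra hcon
    have hne : K.Nonempty := Set.nonempty_iff_ne_empty.2 hcon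
    obtain ⟨⟨s, a⟩, hsa, hmin⟩ := hKc.exists_isMinOn hne continuous_fst.continuousOn
    have hsI := hsa.1.1
    have haS := hsa.1.2
    have hfa : f (s, a) ≤ 0 := hsa.2
    simp only at hsI haS
    have hs0 : 0 < s := by
      rcases hsI.1.eq_or_lt with h | h
      · exfalso
        have h1 := h0 a (hne0 a haS)
        have h2 : f (s, a) = ∑ i, ∑ j, a i * a j * P x0 i j := by
          rw [← h, hf]
          simp only [Sym.qf, hg0]
        rw [h2] at hfa
        linarith
      · exact h
    -- before `s` the form is positive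
    have hbefore : ∀ r ∈ Set.Ico (0 : ℝ) s, ∀ b ∈ Metric.sphere (0 : Fin 3 → ℝ) 1,
        0 < f (r, b) := by
      intro r hr b hb
      by_contra hcon2
      have h1 : (r, b) ∈ K := ⟨⟨⟨hr.1, hr.2.le.trans hsI.2⟩, hb⟩, not_lt.1 hcon2⟩
      have h2 := hmin h1
      simp only at h2
      exact absurd hr.2 (not_lt.2 h2)
    -- at `s` it is nonnegative
    have hat : ∀ b : Fin 3 → ℝ, 0 ≤ f (s, b) := by
      intro b
      by_contra hcon2
      rw [not_le] at hcon2
      have hb0 : b ≠ 0 := by
        rintro rfl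
        simp [hf, Sym.qf] at hcon2
      have hopen : IsOpen {r : ℝ | f (r, b) < 0} :=
        isOpen_lt (hfc.comp (continuous_id.prodMk continuous_const)) continuous_const
      obtain ⟨δ, hδ, hball⟩ := Metric.isOpen_iff.1 hopen s hcon2
      set r := max 0 (s - δ / 2) with hr
      have hr1 : r < s := by
        rw [hr]
        exact max_lt hs0 (by linarith)
      have hr2 : r ∈ Metric.ball s δ := by
        rw [Metric.mem_ball, Real.dist_eq, abs_sub_comm, abs_of_pos (by linarith)]
        have : s - δ / 2 ≤ r := le_max_right _ _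
        linarith
      have h1 : f (r, b) < 0 := hball hr2
      have h2 := hom r (hbefore r ⟨le_max_left _ _, hr1⟩) b hb0
      linarith
    have hz : f (s, a) = 0 := le_antisymm hfa (hat a)
    -- `a` is in the kernel
    have hker : a = 0 := by
      refine hk (g s) a fun j => ?_
      set b : Fin 3 → ℝ := Pi.single j 1 with hb
      set c : ℝ := ∑ i, a i * P (g s) i j with hcdef
      have h1 : ∀ e : ℝ, 0 ≤ 2 * e * c + e ^ 2 * f (s, b) := by
        intro e
        have h2 := hat (a + e • b)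
        have h3 : f (s, a + e • b) = f (s, a) + 2 * e * (∑ j, b j * ∑ i, a i * P (g s) i j) +
            e ^ 2 * f (s, b) := Sym.qf_add _ (hs (g s)) a b e
        have h4 : ∑ k, b k * ∑ i, a i * P (g s) i k = c := by
          rw [Finset.sum_eq_single j]
          · rw [hb, Pi.single_eq_same, one_mul]
          · intro k _ hkj
            rw [hb, Pi.single_eq_of_ne hkj, zero_mul]
          · intro h
            exact absurd (Finset.mem_univ j) h
        rw [h3, hz, h4] at h2
        linarith
      have hfb : 0 ≤ f (s, b) := hat b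
      by_contra hc0
      -- choose `e = - t c` with small `t`
      have h5 := h1 (-(c / (f (s, b) + 1)))
      have h6 : 0 < f (s, b) + 1 := by linarith
      have h7 : 2 * -(c / (f (s, b) + 1)) * c + (-(c / (f (s, b) + 1))) ^ 2 * f (s, b) =
          -(c ^ 2 / (f (s, b) + 1)) * (2 - f (s, b) / (f (s, b) + 1)) := by
        field_simp
        ring
      rw [h7] at h5
      have h8 : f (s, b) / (f (s, b) + 1) < 1 := by
        rw [div_lt_one h6]
        linarith
      have h9 : 0 < c ^ 2 / (f (s, b) + 1) := by positivity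
      nlinarith
    exact hne0 a haS hker
  have h1 : ∀ a ∈ Metric.sphere (0 : Fin 3 → ℝ) 1, 0 < f (1, a) := by
    intro a ha
    by_contra hcon
    have h2 : ((1 : ℝ), a) ∈ K := ⟨⟨⟨zero_le_one, le_rfl⟩, ha⟩, not_lt.1 hcon⟩
    rw [hempty] at h2
    exact h2
  intro a ha
  have h2 := hom 1 h1 a ha
  have h3 : f (1, a) = ∑ i, ∑ j, a i * a j * P x i j := by
    rw [hf]
    simp only [Sym.qf, hg1]
  rw [← h3]
  exact h2

end Vale.Agent.P247
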