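import Vale.Agent.P247.Linear
import Vale.Agent.P247.Orth
import Vale.Agent.P247.Sym

/-!
P247: three classes of triples on the four-torus which satisfy the pairing condition.
-/

open scoped ContDiff Matrix
open intervalIntegral

namespace Vale.Agent.P247

/-- At every point `wᵢ` is wedge-orthogonal to the means of the other two forms. -/
def MeanOrthogonal (w : Fin 3 → X → V) : Prop :=
  ∀ i j x, i ≠ j → wedge (w i x) (meanForm (w j)) = 0

/-- The matrix `wᵢ(x) ∧ mean wⱼ` is symmetric at every point and positive definite at one point. -/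
def MeanSymmetric (w : Fin 3 → X → V) : Prop :=
  (∀ i j x, wedge (w i x) (meanForm (w j)) = wedge (w j x) (meanForm (w i))) ∧
    ∃ x, ∀ a : Fin 3 → ℝ, a ≠ 0 → 0 < ∑ i, ∑ j, a i * a j * wedge (w i x) (meanForm (w j))

theorem pair_of_pos (w : Fin 3 → X → V)
    (hp : ∀ x, ∀ a : Fin 3 → ℝ, a ≠ 0 →
      0 < ∑ i, ∑ j, a i * a j * wedge (w i x) (meanForm (w j))) : PairCondition w := by
  intro a ha x
  have h1 := hp x a ha
  rw [← wedge_sum] at h1
  have h2 : 0 ≤ Real.sqrt (wedge (∑ i, a i • w i x) (∑ i, a i • w i x)) *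
      Real.sqrt (∑ i, a i ^ 2) := by positivity
  linarith

theorem pair_of_orthogonal (w : Fin 3 → X → V) (h : IsHypersymplectic w) (hn : IsNormalized w)
    (ho : MeanOrthogonal w) : PairCondition w := by
  have e0 : ∀ i, meanForm (w i) = bar (w i) := fun i => meanForm_eq _
  have hpos := orth_pos w h hn fun i j x hij => by
    rw [← e0]
    exact ho i j x hij
  refine pair_of_pos w fun x a ha => ?_
  have e : ∀ i, ∑ j, a i * a j * wedge (w i x) (meanForm (w j)) =
      a i ^ 2 * wedge (w i x) (bar (w i)) := by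
    intro i
    rw [Finset.sum_eq_single i]
    · rw [e0]; ring
    · intro j _ hj
      rw [ho i j x hj.symm, mul_zero]
    · intro hi
      exact absurd (Finset.mem_univ _) hi
  simp only [e]
  obtain ⟨k, hk⟩ := Function.ne_iff.1 ha
  have hk' : a k ≠ 0 := hk
  exact Finset.sum_pos' (fun i _ => mul_nonneg (sq_nonneg _) (hpos i x).le)
    ⟨k, Finset.mem_univ _, mul_pos (by positivity) (hpos k x)⟩

theorem wedge_eq_zero_comb {w : Fin 3 → X → V} (h : IsHypersymplectic w)
    (hn : IsNormalized w) (x : X) (a : Fin 3 → ℝ)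
    (ha : ∀ j, wedge (∑ i, a i • w i x) (bar (w j)) = 0) : a = 0 := by
  by_contra hne
  obtain ⟨hcl, hpos⟩ := h
  have h1 := (posDef_iff fun i => w i x).1 (hpos x) a hne
  obtain ⟨u, hu⟩ : ∃ u : V, u = ∑ i, a i • w i x := ⟨_, rfl⟩
  rw [← hu] at h1 ha
  obtain ⟨r, hr, hr2⟩ := exists_wedge_nonpos ![u, bar (w 0), bar (w 1), bar (w 2)]
  have hbar := wedge_bar_comb w hcl hn ![r 1, r 2, r 3]
  obtain ⟨b, hb⟩ : ∃ b : V, b = ∑ i, (![r 1, r 2, r 3] : Fin 3 → ℝ) i • bar (w i) := ⟨_, rfl⟩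
  rw [← hb] at hbar
  have e1 : ∑ i, r i • (![u, bar (w 0), bar (w 1), bar (w 2)] : Fin 4 → V) i = r 0 • u + b := by
    rw [hb, Fin.sum_univ_four, Fin.sum_univ_three]
    simp [add_assoc]
  have hub : Bl u b = 0 := by
    rw [hb, map_sum]
    refine Finset.sum_eq_zero fun j _ => ?_
    rw [map_smul, Bl_apply, ha j, smul_zero]
  have e2 : wedge (r 0 • u + b) (r 0 • u + b) = r 0 ^ 2 * wedge u u + wedge b b := by
    have h3 : wedge (r 0 • u + b) (r 0 • u + b) =
        r 0 ^ 2 * wedge u u + 2 * r 0 * Bl u b + wedge b b := by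
      simp only [Bl_apply, wedge, Pi.add_apply, Pi.smul_apply, smul_eq_mul]
      ring
    rw [h3, hub]
    ring
  have e3 : ∑ i, (![r 1, r 2, r 3] : Fin 3 → ℝ) i ^ 2 = r 1 ^ 2 + r 2 ^ 2 + r 3 ^ 2 := by
    rw [Fin.sum_univ_three]
    rfl
  rw [e1, e2, hbar, e3] at hr2
  have h0 : 0 ≤ r 0 ^ 2 * wedge u u := by positivity
  have s1 := sq_nonneg (r 1)
  have s2 := sq_nonneg (r 2)
  have s3 := sq_nonneg (r 3)
  have z0 : r 0 = 0 := by
    have : r 0 ^ 2 * wedge u u = 0 := by linarith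
    rcases mul_eq_zero.1 this with h4 | h4
    · exact pow_eq_zero_iff (two_ne_zero) |>.1 h4
    · exact absurd h4 h1.ne'
  have z1 : r 1 = 0 := pow_eq_zero_iff (two_ne_zero) |>.1 (by linarith : r 1 ^ 2 = 0)
  have z2 : r 2 = 0 := pow_eq_zero_iff (two_ne_zero) |>.1 (by linarith : r 2 ^ 2 = 0)
  have z3 : r 3 = 0 := pow_eq_zero_iff (two_ne_zero) |>.1 (by linarith : r 3 ^ 2 = 0)
  apply hr
  funext i
  fin_cases i
  · exact z0
  · exact z1
  · exact z2
  · exact z3

theorem pair_of_symmetric (w : Fin 3 → X → V) (h : IsHypersymplectic w) (hn : IsNormalized w)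
    (hs : MeanSymmetric w) : PairCondition w := by
  have e0 : ∀ i, meanForm (w i) = bar (w i) := fun i => meanForm_eq _
  obtain ⟨hs1, x0, hx0⟩ := hs
  refine pair_of_pos w (sym_pos (fun x i j => wedge (w i x) (meanForm (w j))) (fun i j => ?_)
    (fun x i j => hs1 i j x) (fun x a hk => ?_) x0 hx0)
  · have := (sp_lin (Bl (bar (w j))) (h.1 i)).smooth.continuous
    simp only [e0]
    refine this.congr fun x => ?_
    rw [Bl_comm, Bl_apply]
  · refine wedge_eq_zero_comb h hn x a fun j => ?_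
    have := hk j
    rw [← Bl_apply, Bl_comm]
    simp only [map_sum, map_smul, smul_eq_mul]
    rw [← this]
    refine Finset.sum_congr rfl fun i _ => ?_
    rw [e0, Bl_comm, Bl_apply]

end Vale.Agent.P247
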