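import Vale.Agent.P247.Linear

/-! P247: three linear moves joined to one smooth path. -/

open scoped ContDiff Matrix

namespace Vale.Agent.P247

namespace Concat

/-- the parameter of the move `i` at time `t` -/
noncomputable def par (i : Fin 3) (t : ℝ) : ℝ := Real.smoothTransition (3 * t - ((i : ℕ) : ℝ))

theorem par_smooth (i : Fin 3) : ContDiff ℝ ∞ (par i) := by
  unfold par
  exact Real.smoothTransition.contDiff.comp ((contDiff_const.mul contDiff_id).sub contDiff_const)

theorem par_mem (i : Fin 3) (t : ℝ) : par i t ∈ Set.Icc (0 : ℝ) 1 :=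
  ⟨Real.smoothTransition.nonneg _, Real.smoothTransition.le_one _⟩

theorem par_zero (i : Fin 3) {t : ℝ} (h : 3 * t ≤ ((i : ℕ) : ℝ)) : par i t = 0 :=
  Real.smoothTransition.zero_of_nonpos (by linarith)

theorem par_one (i : Fin 3) {t : ℝ} (h : ((i : ℕ) : ℝ) + 1 ≤ 3 * t) : par i t = 1 :=
  Real.smoothTransition.one_of_one_le (by linarith)

end Concat

open Concat in
theorem concat (u : Fin 3 → X → V) (b : Fin 3 → V) (hu : ∀ i, IsClosedForm (u i))
    (hb : ∀ i j k, b i j k = -b i k j) (hco : ∀ i, Cohomologous (fun _ => b i) (u i))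
    (h0 : ∀ t ∈ Set.Icc (0:ℝ) 1, ∀ x, (Matrix.of fun i j =>
      wedge ((![(1 - t) • u 0 x + t • b 0, u 1 x, u 2 x] : Fin 3 → V) i)
        ((![(1 - t) • u 0 x + t • b 0, u 1 x, u 2 x] : Fin 3 → V) j)).PosDef)
    (h1 : ∀ t ∈ Set.Icc (0:ℝ) 1, ∀ x, (Matrix.of fun i j =>
      wedge ((![b 0, (1 - t) • u 1 x + t • b 1, u 2 x] : Fin 3 → V) i)
        ((![b 0, (1 - t) • u 1 x + t • b 1, u 2 x] : Fin 3 → V) j)).PosDef)
    (h2 : ∀ t ∈ Set.Icc (0:ℝ) 1, ∀ x, (Matrix.of fun i j =>
      wedge ((![b 0, b 1, (1 - t) • u 2 x + t • b 2] : Fin 3 → V) i)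
        ((![b 0, b 1, (1 - t) • u 2 x + t • b 2] : Fin 3 → V) j)).PosDef) :
    ∃ Ω : ℝ → Fin 3 → X → V, (∀ i, ContDiff ℝ ∞ fun p : ℝ × X => Ω p.1 i p.2) ∧ Ω 0 = u ∧
      (∀ t ∈ Set.Icc (0 : ℝ) 1, IsHypersymplectic (Ω t) ∧ ∀ i, Cohomologous (Ω t i) (u i)) ∧
      Ω 1 = fun i _ => b i := by
  refine ⟨fun t i x => (1 - par i t) • u i x + par i t • b i, fun i => ?_, ?_,
    fun t ht => ⟨⟨fun i => isClosedForm_segment (hu i) (hb i) (par i t), fun x => ?_⟩,
      fun i => ?_⟩, ?_⟩
  · have hp : ContDiff ℝ ∞ fun p : ℝ × X => par i p.1 := (par_smooth i).comp contDiff_fst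
    exact ((contDiff_const.sub hp).smul ((hu i).smooth.comp contDiff_snd)).add
      (hp.smul contDiff_const)
  · funext i x
    have h : par i 0 = 0 := par_zero i (by rw [mul_zero]; positivity)
    change (1 - par i 0) • u i x + par i 0 • b i = u i x
    rw [h]
    simp
  · -- positivity
    have hv : ∀ v : Fin 3 → V, (∀ i, (1 - par i t) • u i x + par i t • b i = v i) →
        (Matrix.of fun i j => wedge (v i) (v j) : Matrix (Fin 3) (Fin 3) ℝ).PosDef →
        (Matrix.of fun i j => wedge ((1 - par i t) • u i x + par i t • b i)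
          ((1 - par j t) • u j x + par j t • b j) : Matrix (Fin 3) (Fin 3) ℝ).PosDef := by
      intro v h hp
      have h3 : (Matrix.of fun i j => wedge ((1 - par i t) • u i x + par i t • b i)
          ((1 - par j t) • u j x + par j t • b j) : Matrix (Fin 3) (Fin 3) ℝ) =
          Matrix.of fun i j => wedge (v i) (v j) := by
        ext i j
        simp only [Matrix.of_apply, h]
      rw [h3]
      exact hp
    rcases le_or_gt t (1 / 3) with hA | hA
    · have e1 : par 1 t = 0 := par_zero 1 (by norm_num; linarith)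
      have e2 : par 2 t = 0 := par_zero 2 (by norm_num; linarith)
      refine hv _ (fun i => ?_) (h0 (par 0 t) (par_mem 0 t) x)
      fin_cases i
      · rfl
      · change (1 - par 1 t) • u 1 x + par 1 t • b 1 = u 1 x
        rw [e1]
        simp
      · change (1 - par 2 t) • u 2 x + par 2 t • b 2 = u 2 x
        rw [e2]
        simp
    · rcases le_or_gt t (2 / 3) with hB | hB
      · have e0 : par 0 t = 1 := par_one 0 (by norm_num; linarith)
        have e2 : par 2 t = 0 := par_zero 2 (by norm_num; linarith)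
        refine hv _ (fun i => ?_) (h1 (par 1 t) (par_mem 1 t) x)
        fin_cases i
        · change (1 - par 0 t) • u 0 x + par 0 t • b 0 = b 0
          rw [e0]
          simp
        · rfl
        · change (1 - par 2 t) • u 2 x + par 2 t • b 2 = u 2 x
          rw [e2]
          simp
      · have e0 : par 0 t = 1 := par_one 0 (by norm_num; linarith)
        have e1 : par 1 t = 1 := par_one 1 (by norm_num; linarith)
        refine hv _ (fun i => ?_) (h2 (par 2 t) (par_mem 2 t) x)
        fin_cases i
        · change (1 - par 0 t) • u 0 x + par 0 t • b 0 = b 0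
          rw [e0]
          simp
        · change (1 - par 1 t) • u 1 x + par 1 t • b 1 = b 1
          rw [e1]
          simp
        · rfl
  · obtain ⟨α, hα, hα2⟩ := hco i
    refine ⟨fun k y => par i t * α k y, fun k => (hα k).const_mul _, fun x j k => ?_⟩
    have hpd : ∀ j k, Vale.Agent.P247.pd j (fun y => par i t * α k y) x =
        par i t * Vale.Agent.P247.pd j (α k) x := by
      intro j k
      unfold Vale.Agent.P247.pd
      rw [fderiv_const_mul ((hα k).smooth.differentiable (by simp)).differentiableAt]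
      simp
    rw [hpd, hpd, ← mul_sub, ← hα2 x j k]
    simp only [Pi.add_apply, Pi.smul_apply, smul_eq_mul]
    ring
  · funext i x
    have h : par i 1 = 1 := par_one i (by
      have : (i : ℕ) ≤ 2 := Nat.le_of_lt_succ i.2
      have h3 : ((i : ℕ) : ℝ) ≤ 2 := by exact_mod_cast this
      linarith)
    change (1 - par i 1) • u i x + par i 1 • b i = b i
    rw [h]
    simp

end Vale.Agent.P247
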