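import Mathlib

/-!
# P247: hypersymplectic structures on the four-torus (definitions)

Differential forms on `T⁴ = ℝ⁴ / ℤ⁴` are given by their coefficient functions, which are smooth
functions on `ℝ⁴` of period one in every variable.
-/

open scoped ContDiff
open intervalIntegral

namespace Vale.Agent.P247

/-- `ℝ⁴` -/
abbrev X : Type := Fin 4 → ℝ

/-- The coefficients of an exterior two-form on `ℝ⁴`. -/
abbrev V : Type := Fin 4 → Fin 4 → ℝ

/-- The `i`-th partial derivative. -/
noncomputable def pd (i : Fin 4) (f : X → ℝ) (x : X) : ℝ := fderiv ℝ f x (Pi.single i 1)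

/-- Smooth functions on the torus. -/
structure SP (f : X → ℝ) : Prop where
  smooth : ContDiff ℝ ∞ f
  per : ∀ i x, f (x + Pi.single i 1) = f x

/-- `F` is a smooth closed two-form `½ ∑ F_{jk} dx_j ∧ dx_k` on the torus. -/
structure IsClosedForm (F : X → V) : Prop where
  smooth : ContDiff ℝ ∞ F
  per : ∀ i x, F (x + Pi.single i 1) = F x
  anti : ∀ x j k, F x j k = -F x k j
  closed : ∀ i j k x, pd i (fun y => F y j k) x + pd j (fun y => F y k i) x +
    pd k (fun y => F y i j) x = 0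

/-- The wedge product: `α ∧ β = wedge α β dx₀ ∧ dx₁ ∧ dx₂ ∧ dx₃`. -/
def wedge (α β : V) : ℝ :=
  α 0 1 * β 2 3 - α 0 2 * β 1 3 + α 0 3 * β 1 2 + α 1 2 * β 0 3 - α 1 3 * β 0 2 + α 2 3 * β 0 1

/-- Hypersymplectic structures on the torus: triples of closed two-forms whose wedge product
matrix is positive definite at every point. -/
def IsHypersymplectic (w : Fin 3 → X → V) : Prop :=
  (∀ i, IsClosedForm (w i)) ∧
    ∀ x, (Matrix.of fun i j => wedge (w i x) (w j x) : Matrix (Fin 3) (Fin 3) ℝ).PosDef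

/-- The integral of a function over the torus. -/
noncomputable def torusInt (f : X → ℝ) : ℝ :=
  ∫ s in (0 : ℝ)..1, ∫ r in (0 : ℝ)..1, ∫ q in (0 : ℝ)..1, ∫ p in (0 : ℝ)..1, f ![p, q, r, s]

/-- Normalized triples: `∫ wᵢ ∧ wⱼ = δᵢⱼ`. -/
def IsNormalized (w : Fin 3 → X → V) : Prop :=
  ∀ i j, torusInt (fun x => wedge (w i x) (w j x)) = if i = j then 1 else 0

/-- Hyperkähler triples: closed forms with `wᵢ ∧ wⱼ = 2 δᵢⱼ μ` for a positive volume form `μ`. -/
def IsHyperkahler (w : Fin 3 → X → V) : Prop :=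
  (∀ i, IsClosedForm (w i)) ∧ ∃ μ : X → ℝ, ContDiff ℝ ∞ μ ∧ (∀ x, 0 < μ x) ∧
    ∀ i j x, wedge (w i x) (w j x) = if i = j then 2 * μ x else 0

/-- Cohomologous two-forms: `F - H = dα` for a smooth one-form `α` on the torus. -/
def Cohomologous (F H : X → V) : Prop :=
  ∃ α : Fin 4 → X → ℝ, (∀ k, SP (α k)) ∧ ∀ x j k, F x j k - H x j k = pd j (α k) x - pd k (α j) x

/-- A cohomologous deformation of `w` through hypersymplectic structures which ends in a
hyperkähler triple. -/
def HasHyperkahlerDeformation (w : Fin 3 → X → V) : Prop :=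
  ∃ Ω : ℝ → Fin 3 → X → V,
    (∀ i, ContDiff ℝ ∞ fun p : ℝ × X => Ω p.1 i p.2) ∧ Ω 0 = w ∧
    (∀ t ∈ Set.Icc (0 : ℝ) 1, IsHypersymplectic (Ω t) ∧ ∀ i, Cohomologous (Ω t i) (w i)) ∧
    IsHyperkahler (Ω 1)

/-- Two independent constant linear combinations of the forms are constant (parallel) forms. -/
def HasTwoConstant (w : Fin 3 → X → V) : Prop :=
  ∃ c : Fin 2 → Fin 3 → ℝ, LinearIndependent ℝ c ∧
    ∀ a x y, ∑ i, c a i • w i x = ∑ i, c a i • w i y

/-- Translation means and their primitives. -/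
noncomputable def Mop (i : Fin 4) (f : X → ℝ) (x : X) : ℝ :=
  ∫ s in (0 : ℝ)..1, f (x + s • Pi.single i 1)

/-- The periodic primitive in the direction `i`. -/
noncomputable def Kop (i : Fin 4) (f : X → ℝ) (x : X) : ℝ :=
  ∫ s in (0 : ℝ)..1, (s - 1 / 2) * f (x + s • Pi.single i 1)

/-- The mean value over the torus, as a function. -/
noncomputable def mean (f : X → ℝ) : X → ℝ := Mop 3 (Mop 2 (Mop 1 (Mop 0 f)))

end Vale.Agent.P247
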