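import Vale.Agent.P247.Move

/-!
P247: hypersymplectic triples which agree on two independent constant combinations.
-/

open scoped ContDiff Matrix
open intervalIntegral

namespace Vale.Agent.P247

/-- the two triples agree on two independent constant linear combinations -/
def AgreeOnTwo (w w' : Fin 3 → X → V) : Prop :=
  ∃ c : Fin 2 → Fin 3 → ℝ, LinearIndependent ℝ c ∧
    ∀ a x, ∑ i, c a i • w i x = ∑ i, c a i • w' i x

theorem pd_comb {α : Fin 3 → Fin 4 → X → ℝ} (hα : ∀ i k, SP (α i k)) (e : Fin 3 → ℝ) (j k : Fin 4)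
    (x : X) : Vale.Agent.P247.pd j (fun y => ∑ i, e i * α i k y) x =
      ∑ i, e i * Vale.Agent.P247.pd j (α i k) x := by
  have hd : ∀ m, DifferentiableAt ℝ (fun y => α m k y) x := fun m => (hα m k).diff x
  unfold Vale.Agent.P247.pd
  rw [fderiv_fun_sum fun m _ => (hd m).const_mul (e m)]
  rw [sum_apply]
  refine Finset.sum_congr rfl fun m _ => ?_
  rw [fderiv_const_mul (hd m)]
  simp

theorem cohomologous_comb {w w' : Fin 3 → X → V} (h : ∀ i, Cohomologous (w i) (w' i))
    (e : Fin 3 → ℝ) :
    Cohomologous (fun x => ∑ i, e i • w i x) (fun x => ∑ i, e i • w' i x) := by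
  choose α hα h2 using h
  have hsum : ∀ (k : Fin 4) (s : Finset (Fin 3)), SP fun y => ∑ i ∈ s, e i * α i k y := by
    intro k s
    induction s using Finset.induction_on with
    | empty =>
      simp only [Finset.sum_empty]
      exact ⟨contDiff_const, fun _ _ => rfl⟩
    | insert i s hi ih =>
      simp only [Finset.sum_insert hi]
      exact ((hα i k).const_mul (e i)).add ih
  refine ⟨fun k y => ∑ i, e i * α i k y, fun k => hsum k _, fun x j k => ?_⟩
  rw [pd_comb hα, pd_comb hα]
  simp only [Finset.sum_apply, Pi.smul_apply, smul_eq_mul]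
  rw [← Finset.sum_sub_distrib, ← Finset.sum_sub_distrib]
  refine Finset.sum_congr rfl fun i _ => ?_
  rw [← mul_sub, ← mul_sub, h2 i x j k]

/-- Hypersymplectic triples which are cohomologous and agree on two independent constant
combinations are joined by the linear path. -/
theorem gen_move (w w' : Fin 3 → X → V) (h : IsHypersymplectic w) (h' : IsHypersymplectic w')
    (hco : ∀ i, Cohomologous (w i) (w' i)) (hag : AgreeOnTwo w w') (t : ℝ)
    (ht : t ∈ Set.Icc (0 : ℝ) 1) : IsHypersymplectic fun i x => (1 - t) • w i x + t • w' i x := by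
  obtain ⟨c, hc1, hc2⟩ := hag
  obtain ⟨e, he⟩ := exists_basis c hc1
  refine ⟨fun i => ?_, fun x => ?_⟩
  · have := isClosedForm_comb (w := ![w i, w' i, w i]) (by
      intro j
      fin_cases j
      · exact h.1 i
      · exact h'.1 i
      · exact h.1 i) ![1 - t, t, 0]
    have e : (fun x => (1 - t) • w i x + t • w' i x) = fun x =>
        ∑ j, (![1 - t, t, 0] : Fin 3 → ℝ) j • (![w i, w' i, w i] : Fin 3 → X → V) j x := by
      funext x
      simp [Fin.sum_univ_three]
    show IsClosedForm fun x => (1 - t) • w i x + t • w' i x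
    rw [e]
    exact this
  · rw [posDef_iff]
    intro a ha
    obtain ⟨r, hr, hr0, -⟩ := he a
    have hcomb : ∀ s : Fin 3 → ℝ, ∀ (v : Fin 3 → V), ∑ i, (s 0 • e + s 1 • c 0 + s 2 • c 1) i • v i =
        s 0 • (∑ i, e i • v i) + s 1 • (∑ i, c 0 i • v i) + s 2 • (∑ i, c 1 i • v i) := by
      intro s v
      rw [Finset.smul_sum, Finset.smul_sum, Finset.smul_sum, ← Finset.sum_add_distrib,
        ← Finset.sum_add_distrib]
      refine Finset.sum_congr rfl fun i _ => ?_
      rw [smul_smul, smul_smul, smul_smul, ← add_smul, ← add_smul]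
      rfl
    have hlin : ∀ s : Fin 3 → ℝ, ∑ i, s i • ((1 - t) • w i x + t • w' i x) =
        (1 - t) • (∑ i, s i • w i x) + t • (∑ i, s i • w' i x) := by
      intro s
      rw [Finset.smul_sum, Finset.smul_sum, ← Finset.sum_add_distrib]
      refine Finset.sum_congr rfl fun i _ => ?_
      rw [smul_add, smul_comm (s i) (1 - t), smul_comm (s i) t]
    have hc' : ∀ m : Fin 2, ∑ i, c m i • ((1 - t) • w i x + t • w' i x) =
        ∑ i, c m i • w i x := by
      intro m
      rw [hlin, ← hc2 m x, ← add_smul]
      simp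
    rw [hr, hcomb r, hlin e, hc' 0, hc' 1]
    have hne : ∀ s : Fin 3 → ℝ, s ≠ 0 → s 0 • e + s 1 • c 0 + s 2 • c 1 ≠ 0 :=
      (he 0).choose_spec.2.2
    have key := move3 (c := fun x => ∑ i, c 0 i • w i x) (d := fun x => ∑ i, c 1 i • w i x)
      (p := fun x => ∑ i, e i • w i x) (q := fun x => ∑ i, e i • w' i x)
      (isClosedForm_comb h.1 _).smooth.continuous (isClosedForm_comb h.1 _).smooth.continuous
      (isClosedForm_comb h.1 _).smooth.continuous (isClosedForm_comb h'.1 _).smooth.continuous
      (fun y s hs => ?_) (fun y s hs => ?_)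
      (not_pos_of_cohomologous (isClosedForm_comb h.1 _) (isClosedForm_comb h'.1 _)
        (cohomologous_comb hco e)) t ht x r (hr0 ha)
    · exact key
    · have h1 := (posDef_iff fun i => w i y).1 (h.2 y) _ (hne s hs)
      rw [hcomb s] at h1
      exact h1
    · have h1 := (posDef_iff fun i => w' i y).1 (h'.2 y) _ (hne s hs)
      rw [hcomb s, ← hc2 0 y, ← hc2 1 y] at h1
      exact h1

end Vale.Agent.P247
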