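import Vale.Agent.P247.ChainC

/-!
P247: triples which are invariant under translations in the first coordinate.
-/

open scoped ContDiff Matrix
open intervalIntegral

namespace Vale.Agent.P247

namespace Inv

/-- the part `dx₀ ∧ ι₀ α` -/
def P (α : V) : V := fun j k =>
  (if j = 0 then 1 else 0) * α 0 k - (if k = 0 then 1 else 0) * α 0 j

/-- the form `ι₀ α ∧ ι₀ β` -/
def A (α β : V) : V := fun j k => α 0 j * β 0 k - α 0 k * β 0 j

/-- the first row determines the difference -/
theorem row_convex {α β : V} (h : ∀ k, α 0 k = β 0 k) (t : ℝ) :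
    wedge ((1 - t) • α + t • β) ((1 - t) • α + t • β) =
      (1 - t) * wedge α α + t * wedge β β := by
  simp only [wedge, Pi.add_apply, Pi.smul_apply, smul_eq_mul, h 1, h 2, h 3]
  ring

theorem wedge_P (α β : V) : wedge α β = wedge (P α) β + wedge (P β) α := by
  simp [wedge, P]
  ring

theorem P_P (α β : V) : wedge (P α) (P β) = 0 := by
  simp [wedge, P]

theorem A_A {α β γ δ : V} (h1 : α 0 0 = 0) (h2 : β 0 0 = 0) (h3 : γ 0 0 = 0) (h4 : δ 0 0 = 0) :
    wedge (A α β) (A γ δ) = 0 := by
  simp [wedge, A, h1, h2, h3, h4]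

/-- the determinant -/
def D (v : Fin 3 → V) : ℝ := wedge (P (v 0)) (A (v 1) (v 2))

/-- the three products -/
def AA (v : Fin 3 → V) (k : Fin 3) : V := A (v (k + 1)) (v (k + 2))

theorem P_AA (v : Fin 3 → V) (l k : Fin 3) :
    wedge (P (v l)) (AA v k) = if l = k then D v else 0 := by
  fin_cases l <;> fin_cases k <;> simp [wedge, P, AA, A, D] <;> ring

theorem AA_AA {v : Fin 3 → V} (h : ∀ i, v i 0 0 = 0) (l k : Fin 3) :
    wedge (AA v l) (AA v k) = 0 := A_A (h _) (h _) (h _) (h _)

theorem AA_row {v : Fin 3 → V} (h : ∀ i, v i 0 0 = 0) (k : Fin 3) (j : Fin 4) :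
    AA v k 0 j = 0 := by
  simp [AA, A, h]

theorem D_det (v : Fin 3 → V) :
    D v = (Matrix.of fun (l m : Fin 3) => v l 0 m.succ : Matrix (Fin 3) (Fin 3) ℝ).det := by
  rw [Matrix.det_fin_three]
  simp [D, wedge, P, A, Fin.succ]
  ring

theorem D_ne (v : Fin 3 → V)
    (h : ∀ a : Fin 3 → ℝ, a ≠ 0 → 0 < wedge (∑ i, a i • v i) (∑ i, a i • v i)) : D v ≠ 0 := by
  intro h0
  rw [D_det] at h0
  obtain ⟨a, ha, ha2⟩ := Matrix.exists_vecMul_eq_zero_iff.2 h0
  have h1 := h a ha
  have h2 : ∀ m : Fin 3, (∑ i, a i • v i) 0 m.succ = 0 := by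
    intro m
    have := congrFun ha2 m
    simpa [Matrix.vecMul, dotProduct, Finset.sum_apply] using this
  obtain ⟨u, hu⟩ : ∃ u : V, u = ∑ i, a i • v i := ⟨_, rfl⟩
  rw [← hu] at h1 h2
  have e1 : u 0 1 = 0 := h2 0
  have e2 : u 0 2 = 0 := h2 1
  have e3 : u 0 3 = 0 := h2 2
  simp only [wedge, e1, e2, e3] at h1
  linarith

section Closed

variable {F H : X → V}

theorem curl (hF : IsClosedForm F) (hi : ∀ j k x, Vale.Agent.P247.pd 0 (fun y => F y j k) x = 0)
    (j k : Fin 4) (x : X) : Vale.Agent.P247.pd j (fun y => F y 0 k) x =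
      Vale.Agent.P247.pd k (fun y => F y 0 j) x := by
  have h1 := hF.closed 0 j k x
  rw [hi j k x] at h1
  have h2 : (fun y => F y k 0) = fun y => -F y 0 k := by
    funext y
    exact hF.anti y k 0
  rw [h2, pd_neg (hF.sp 0 k)] at h1
  linarith

theorem closed_P (hF : IsClosedForm F)
    (hi : ∀ j k x, Vale.Agent.P247.pd 0 (fun y => F y j k) x = 0) :
    IsClosedForm fun x => P (F x) where
  smooth := by
    refine contDiff_pi.2 fun j => contDiff_pi.2 fun k => ?_
    exact (contDiff_const.mul (hF.sp 0 k).smooth).sub (contDiff_const.mul (hF.sp 0 j).smooth)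
  per i x := by rw [hF.per]
  anti x j k := by
    simp only [P]
    ring
  closed i j k x := by
    have key : ∀ i j k : Fin 4, Vale.Agent.P247.pd i (fun y => P (F y) j k) x =
        (if j = 0 then 1 else 0) * Vale.Agent.P247.pd i (fun y => F y 0 k) x -
          (if k = 0 then 1 else 0) * Vale.Agent.P247.pd i (fun y => F y 0 j) x := by
      intro i j k
      have h1 := pd_sub ((hF.sp 0 k).const_mul (if j = 0 then 1 else 0))
        ((hF.sp 0 j).const_mul (if k = 0 then 1 else 0)) i x
      have h2 : ∀ (c : ℝ) (m : Fin 4), Vale.Agent.P247.pd i (fun y => c * F y 0 m) x =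
          c * Vale.Agent.P247.pd i (fun y => F y 0 m) x := by
        intro c m
        unfold Vale.Agent.P247.pd
        rw [fderiv_const_mul ((hF.sp 0 m).diff x)]
        simp
      rw [h2, h2] at h1
      exact h1
    rw [key, key, key, curl hF hi i k, curl hF hi j i, curl hF hi k j]
    ring

theorem closed_A (hF : IsClosedForm F) (hH : IsClosedForm H)
    (hi : ∀ j k x, Vale.Agent.P247.pd 0 (fun y => F y j k) x = 0)
    (hi' : ∀ j k x, Vale.Agent.P247.pd 0 (fun y => H y j k) x = 0) :
    IsClosedForm fun x => A (F x) (H x) where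
  smooth := by
    refine contDiff_pi.2 fun j => contDiff_pi.2 fun k => ?_
    exact ((hF.sp 0 j).smooth.mul (hH.sp 0 k).smooth).sub
      ((hF.sp 0 k).smooth.mul (hH.sp 0 j).smooth)
  per i x := by rw [hF.per, hH.per]
  anti x j k := by
    simp only [A]
    ring
  closed i j k x := by
    have key : ∀ i j k : Fin 4, Vale.Agent.P247.pd i (fun y => A (F y) (H y) j k) x =
        (F x 0 j * Vale.Agent.P247.pd i (fun y => H y 0 k) x +
          H x 0 k * Vale.Agent.P247.pd i (fun y => F y 0 j) x) -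
        (F x 0 k * Vale.Agent.P247.pd i (fun y => H y 0 j) x +
          H x 0 j * Vale.Agent.P247.pd i (fun y => F y 0 k) x) := by
      intro i j k
      have h1 := pd_sub ((hF.sp 0 j).mul (hH.sp 0 k)) ((hF.sp 0 k).mul (hH.sp 0 j)) i x
      rw [pd_mul (hF.sp 0 j) (hH.sp 0 k), pd_mul (hF.sp 0 k) (hH.sp 0 j)] at h1
      exact h1
    rw [key, key, key, curl hF hi i k, curl hF hi j i, curl hF hi k j, curl hH hi' i k,
      curl hH hi' j i, curl hH hi' k j]
    ring

end Closed

end Inv

end Vale.Agent.P247
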