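import Vale.Agent.P247.ChainC

/-!
P247: linear paths.
-/

open scoped ContDiff Matrix
open intervalIntegral

namespace Vale.Agent.P247

theorem closed_add {F H : X → V} (hF : IsClosedForm F) (hH : IsClosedForm H) :
    IsClosedForm fun x => F x + H x := by
  have := isClosedForm_comb (w := ![F, H, F]) (by
    intro j
    fin_cases j
    · exact hF
    · exact hH
    · exact hF) ![1, 1, 0]
  have e : (fun x => F x + H x) = fun x =>
      ∑ j, (![1, 1, 0] : Fin 3 → ℝ) j • (![F, H, F] : Fin 3 → X → V) j x := by
    funext x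
    simp [Fin.sum_univ_three]
  rw [e]
  exact this

theorem closed_line {F H : X → V} (hF : IsClosedForm F) (hH : IsClosedForm H) (t : ℝ) :
    IsClosedForm fun x => (1 - t) • F x + t • H x := by
  have := isClosedForm_comb (w := ![F, H, F]) (by
    intro j
    fin_cases j
    · exact hF
    · exact hH
    · exact hF) ![1 - t, t, 0]
  have e : (fun x => (1 - t) • F x + t • H x) = fun x =>
      ∑ j, (![1 - t, t, 0] : Fin 3 → ℝ) j • (![F, H, F] : Fin 3 → X → V) j x := by
    funext x
    simp [Fin.sum_univ_three]
  rw [e]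
  exact this

theorem comb_line (a : Fin 3 → ℝ) (t : ℝ) (u v : Fin 3 → V) :
    ∑ i, a i • ((1 - t) • u i + t • v i) =
      (1 - t) • (∑ i, a i • u i) + t • (∑ i, a i • v i) := by
  rw [Finset.smul_sum, Finset.smul_sum, ← Finset.sum_add_distrib]
  refine Finset.sum_congr rfl fun i _ => ?_
  rw [smul_add, smul_comm (a i) (1 - t), smul_comm (a i) t]

/-- a linear path of positive triples -/
theorem joined_linear {u v : Fin 3 → X → V} (hu : ∀ i, IsClosedForm (u i))
    (hv : ∀ i, IsClosedForm (v i)) (hco : ∀ i, Cohomologous (u i) (v i))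
    (hp : ∀ t ∈ Set.Icc (0 : ℝ) 1, ∀ x, ∀ a : Fin 3 → ℝ, a ≠ 0 →
      0 < wedge ((1 - t) • (∑ i, a i • u i x) + t • (∑ i, a i • v i x))
        ((1 - t) • (∑ i, a i • u i x) + t • (∑ i, a i • v i x))) : Joined u v := by
  refine ⟨fun t i x => (1 - t) • u i x + t • v i x, fun i => ?_, ?_, ?_,
    fun t ht => ⟨⟨fun i => closed_line (hu i) (hv i) t, fun x => ?_⟩, fun i => ?_⟩⟩
  · exact ((contDiff_const.sub contDiff_fst).smul ((hu i).smooth.comp contDiff_snd)).add
      (contDiff_fst.smul ((hv i).smooth.comp contDiff_snd))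
  · funext i x
    simp
  · funext i x
    simp
  · rw [posDef_iff]
    intro a ha
    rw [comb_line]
    exact hp t ht x a ha
  · have h1 := ChainA.cohomologous_step (ChainA.cohomologous_refl (u i)) (hco i) t
    have e : (fun x => (1 - t) • u i x + t • v i x) = fun x => u i x + t • (v i x - u i x) := by
      funext x
      rw [sub_smul, one_smul, smul_sub]
      abel
    show Cohomologous (fun x => (1 - t) • u i x + t • v i x) (u i)
    rw [e]
    exact h1

theorem sp_wedge {F H : X → V} (hF : IsClosedForm F) (hH : IsClosedForm H) :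
    SP fun x => wedge (F x) (H x) := by
  refine ⟨?_, fun i x => by rw [hF.per, hH.per]⟩
  have hf := fun j k => (hF.sp j k).smooth
  have hh := fun j k => (hH.sp j k).smooth
  simp only [wedge]
  exact ((((((hf 0 1).mul (hh 2 3)).sub ((hf 0 2).mul (hh 1 3))).add
    ((hf 0 3).mul (hh 1 2))).add ((hf 1 2).mul (hh 0 3))).sub
    ((hf 1 3).mul (hh 0 2))).add ((hf 2 3).mul (hh 0 1))

theorem bar_add {F H : X → V} (hF : IsClosedForm F) (hH : IsClosedForm H) :
    bar (fun x => F x + H x) = bar F + bar H := by
  funext j k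
  exact mean_add (hF.sp j k) (hH.sp j k) 0

/-- closed forms with the same mean are cohomologous -/
theorem coh_of_bar {F H : X → V} (hF : IsClosedForm F) (hH : IsClosedForm H)
    (h : bar F = bar H) : Cohomologous F H := by
  have h1 := cohomologous_mean hF
  have h2 := cohomologous_mean hH
  have e : (fun x j k => mean (fun y => F y j k) x) = fun (x : X) j k =>
      mean (fun y => H y j k) x := by
    funext x j k
    rw [mean_const (hF.sp j k) x 0, mean_const (hH.sp j k) x 0]
    exact congrFun (congrFun h j) k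
  rw [e] at h1
  exact h1.diff h2

end Vale.Agent.P247
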