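import Vale.Agent.P247.Inv
import Vale.Agent.P247.JoinLin

/-!
P247: the deformation of a triple which is invariant under translations in the first coordinate.
-/

open scoped ContDiff Matrix
open intervalIntegral

namespace Vale.Agent.P247

open Vale.Agent.P247.Inv in
/-- the mean of the `P`-part -/
theorem bar_P {F : X → V} (hF : IsClosedForm F) : bar (fun x => P (F x)) = P (bar F) := by
  funext j k
  have h1 := mean_add ((hF.sp 0 k).const_mul (if j = 0 then 1 else 0))
    ((hF.sp 0 j).const_mul (-(if k = 0 then 1 else 0))) 0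
  rw [mean_smul, mean_smul] at h1
  have e : (fun y => P (F y) j k) = fun y => (if j = 0 then 1 else 0) * F y 0 k +
      -(if k = 0 then 1 else 0) * F y 0 j := by
    funext y
    simp only [P]
    ring
  rw [bar, e, h1]
  simp only [P, bar]
  ring

open Vale.Agent.P247.Inv in
/-- a form without first row which is orthogonal to three independent `P`-parts vanishes -/
theorem eq_zero_of_orth {v : Fin 3 → V} (hv : D v ≠ 0) {R : V} (hR : ∀ j k, R j k = -R k j)
    (h0 : ∀ j, R 0 j = 0) (h : ∀ l, wedge (P (v l)) R = 0) : R = 0 := by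
  have hdet : (Matrix.of fun (l m : Fin 3) => v l 0 m.succ : Matrix (Fin 3) (Fin 3) ℝ).det ≠ 0 := by
    rw [← D_det]
    exact hv
  have hr : (Matrix.of fun (l m : Fin 3) => v l 0 m.succ : Matrix (Fin 3) (Fin 3) ℝ) *ᵥ
      ![R 2 3, -R 1 3, R 1 2] = 0 := by
    funext l
    have := h l
    simp only [wedge, P] at this
    simp [Matrix.mulVec, dotProduct, Fin.sum_univ_three] at this ⊢
    linarith
  have hz := Matrix.eq_zero_of_mulVec_eq_zero hdet hr
  have z0 : R 2 3 = 0 := congrFun hz 0
  have z1 : R 1 3 = 0 := by
    have : -R 1 3 = 0 := congrFun hz 1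
    linarith
  have z2 : R 1 2 = 0 := congrFun hz 2
  have hd : ∀ j, R j j = 0 := by
    intro j
    have := hR j j
    linarith
  funext j k
  show R j k = 0
  fin_cases j <;> fin_cases k
  · exact h0 0
  · exact h0 1
  · exact h0 2
  · exact h0 3
  · show R 1 0 = 0; rw [hR, h0, neg_zero]
  · exact hd 1
  · exact z2
  · exact z1
  · show R 2 0 = 0; rw [hR, h0, neg_zero]
  · show R 2 1 = 0; rw [hR, z2, neg_zero]
  · exact hd 2
  · exact z0
  · show R 3 0 = 0; rw [hR, h0, neg_zero]
  · show R 3 1 = 0; rw [hR, z1, neg_zero]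
  · show R 3 2 = 0; rw [hR, z0, neg_zero]
  · exact hd 3

open Vale.Agent.P247.Inv in
theorem inv_joined (u : Fin 3 → X → V) (h : IsHypersymplectic u)
    (hb : ∀ i j, wedge (bar (u i)) (bar (u j)) = if i = j then 1 else 0)
    (hi : ∀ m j k x, Vale.Agent.P247.pd 0 (fun y => u m y j k) x = 0) :
    ∃ θ : Fin 3 → X → V, IsHyperkahler θ ∧ Joined u θ := by
  obtain ⟨hcl, hpos⟩ := h
  have hpos' := fun x => (posDef_iff fun i => u i x).1 (hpos x)
  have h00 : ∀ i x, u i x 0 0 = 0 := by
    intro i x
    have := (hcl i).anti x 0 0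
    linarith
  have hD : ∀ x, D (fun i => u i x) ≠ 0 := fun x => D_ne _ (hpos' x)
  have hP : ∀ l, IsClosedForm fun x => P (u l x) := fun l => closed_P (hcl l) (hi l)
  have hA : ∀ k, IsClosedForm fun x => AA (fun i => u i x) k := fun k =>
    closed_A (hcl (k + 1)) (hcl (k + 2)) (hi (k + 1)) (hi (k + 2))
  have hspD : SP fun x => D (fun i => u i x) := by
    have := sp_wedge (hP 0) (hA 0)
    exact this
  obtain ⟨D', hD'⟩ : ∃ D' : ℝ, D' = mean (fun x => D (fun i => u i x)) 0 := ⟨_, rfl⟩
  -- the sign
  have hsign : D' ≠ 0 ∧ ∀ x, 0 < D (fun i => u i x) / D' := by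
    have hcont := hspD.smooth.continuous
    rcases lt_or_gt_of_ne (hD 0) with hneg | hp
    · have hall : ∀ x, D (fun i => u i x) < 0 := by
        intro x
        by_contra hx
        push Not at hx
        obtain ⟨z, hz⟩ := mem_range_of_exists_le_of_exists_ge hcont ⟨0, hneg.le⟩ ⟨x, hx⟩
        exact hD z hz
      have h1 := mean_pos (hspD.const_mul (-1)) (fun x => by have := hall x; linarith) 0
      rw [mean_smul, ← hD'] at h1
      exact ⟨by intro h0; rw [h0] at h1; linarith,
        fun x => div_pos_of_neg_of_neg (hall x) (by linarith)⟩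
    · have hall : ∀ x, 0 < D (fun i => u i x) := by
        intro x
        by_contra hx
        push Not at hx
        obtain ⟨z, hz⟩ := mem_range_of_exists_le_of_exists_ge hcont ⟨x, hx⟩ ⟨0, le_of_lt hp⟩
        exact hD z hz
      have h1 := mean_pos hspD hall 0
      rw [← hD'] at h1
      exact ⟨h1.ne', fun x => div_pos (hall x) h1⟩
  obtain ⟨hD0, hsign⟩ := hsign
  have hPA : ∀ l k, wedge (P (bar (u l))) (bar fun x => AA (fun i => u i x) k) =
      if l = k then D' else 0 := by
    intro l k
    rw [← bar_P (hcl l), ← wedge_bar (hP l) (hA k), torusInt_eq]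
    have e : (fun x => wedge (P (u l x)) (AA (fun i => u i x) k)) = fun x =>
        if l = k then D (fun i => u i x) else 0 := by
      funext x
      exact P_AA (fun i => u i x) l k
    rw [e]
    split_ifs with hlk
    · exact hD'.symm
    · exact mean_zero_fun 0
  have hDbar : D (fun i => bar (u i)) ≠ 0 := by
    refine D_ne _ fun a ha => ?_
    rw [wedge_sum]
    have e : ∀ i, ∑ j, a i * a j * wedge (bar (u i)) (bar (u j)) = a i ^ 2 := by
      intro i
      simp only [hb]
      simp
      ring
    simp only [e]
    exact sumsq_pos ha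
  -- the coefficients
  obtain ⟨c, hc⟩ : ∃ c : Fin 3 → Fin 3 → ℝ,
      ∀ i k, c i k = wedge (P (bar (u k))) (bar (u i)) / D' := ⟨_, fun _ _ => rfl⟩
  obtain ⟨C, hC⟩ : ∃ C : Fin 3 → X → V, ∀ i, C i = fun x => ∑ k, c i k • AA (fun m => u m x) k :=
    ⟨fun i => fun x => ∑ k, c i k • AA (fun m => u m x) k, fun _ => rfl⟩
  have hCcl : ∀ i, IsClosedForm (C i) := by
    intro i
    rw [hC]
    exact isClosedForm_comb (w := fun k x => AA (fun m => u m x) k) hA (c i)
  have hθcl : ∀ i, IsClosedForm fun x => P (u i x) + C i x := fun i =>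
    closed_add (hP i) (hCcl i)
  have hbarC : ∀ i, bar (C i) = ∑ k, c i k • bar (fun x => AA (fun m => u m x) k) := by
    intro i
    rw [hC]
    exact bar_comb (w := fun k x => AA (fun m => u m x) k) hA (c i)
  have hAArow : ∀ k j, bar (fun x => AA (fun m => u m x) k) 0 j = 0 := by
    intro k j
    have e : (fun x => AA (fun m => u m x) k 0 j) = fun _ => (0 : ℝ) := by
      funext x
      exact AA_row (fun i => h00 i x) k j
    rw [bar, e]
    exact mean_zero_fun 0
  have hCrow : ∀ i x j, C i x 0 j = 0 := by
    intro i x j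
    rw [hC]
    simp only [Finset.sum_apply, Pi.smul_apply, smul_eq_mul]
    refine Finset.sum_eq_zero fun k _ => ?_
    rw [AA_row (fun i => h00 i x), mul_zero]
  have hbar : ∀ i, bar (fun x => P (u i x) + C i x) = bar (u i) := by
    intro i
    rw [bar_add (hP i) (hCcl i), bar_P (hcl i)]
    have hz : bar (u i) - P (bar (u i)) - bar (C i) = 0 := by
      refine eq_zero_of_orth hDbar (fun j k => ?_) (fun j => ?_) (fun l => ?_)
      · have h1 := bar_anti (hcl i) j k
        have h2 := bar_anti (hCcl i) j k
        simp only [Pi.sub_apply, P]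
        rw [h1, h2]
        ring
      · have h1 : bar (C i) 0 j = 0 := by
          rw [hbarC]
          simp only [Finset.sum_apply, Pi.smul_apply, smul_eq_mul]
          refine Finset.sum_eq_zero fun k _ => ?_
          rw [hAArow, mul_zero]
        have h2 : bar (u i) 0 0 = 0 := by
          have := bar_anti (hcl i) 0 0
          linarith
        simp only [Pi.sub_apply, P]
        rw [h1, h2]
        simp
      · rw [← Bl_apply, map_sub, map_sub, Bl_apply, Bl_apply, P_P, hbarC, map_sum]
        have e : ∀ k, Bl (P (bar (u l))) (c i k • bar (fun x => AA (fun m => u m x) k)) =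
            if l = k then c i k * D' else 0 := by
          intro k
          rw [map_smul, Bl_apply, hPA, smul_eq_mul]
          split_ifs <;> simp
        simp only [e]
        rw [Finset.sum_ite_eq]
        simp only [Finset.mem_univ, if_true]
        rw [hc, div_mul_cancel₀ _ hD0]
        ring
    have : bar (u i) = P (bar (u i)) + bar (C i) := by
      have h2 := hz
      rw [sub_sub, sub_eq_zero] at h2
      exact h2
    exact this.symm
  -- the products
  have hPC : ∀ i j x, wedge (P (u i x)) (C j x) = c j i * D (fun m => u m x) := by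
    intro i j x
    rw [hC, ← Bl_apply]
    simp only
    rw [map_sum]
    have e : ∀ k, Bl (P (u i x)) (c j k • AA (fun m => u m x) k) =
        if i = k then c j k * D (fun m => u m x) else 0 := by
      intro k
      rw [map_smul, Bl_apply, P_AA (fun m => u m x) i k, smul_eq_mul]
      split_ifs <;> simp
    simp only [e]
    rw [Finset.sum_ite_eq]
    simp
  have hCC : ∀ i j x, wedge (C i x) (C j x) = 0 := by
    intro i j x
    simp [wedge, hCrow]
  have hθ : ∀ i j x, wedge (P (u i x) + C i x) (P (u j x) + C j x) =
      (c j i + c i j) * D (fun m => u m x) := by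
    intro i j x
    rw [← Bl_apply, map_add, map_add, LinearMap.add_apply, LinearMap.add_apply]
    rw [Bl_apply, Bl_apply, Bl_apply, Bl_apply, P_P, hPC, hCC, ← Bl_apply (C i x), Bl_comm,
      Bl_apply, hPC]
    ring
  have hcc : ∀ i j, c j i + c i j = if i = j then 1 / D' else 0 := by
    intro i j
    rw [hc, hc, ← add_div, ← wedge_P (bar (u i)) (bar (u j)), hb i j]
    split_ifs <;> simp
  refine ⟨fun i x => P (u i x) + C i x, ⟨hθcl, fun x => D (fun m => u m x) / D' / 2, ?_, ?_, ?_⟩, ?_⟩
  · exact (hspD.smooth.div_const _).div_const _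
  · intro x
    have := hsign x
    positivity
  · intro i j x
    rw [hθ, hcc]
    split_ifs
    · field_simp
    · simp
  · refine joined_linear hcl hθcl (fun i => coh_of_bar (hcl i) (hθcl i) (hbar i).symm)
      fun t ht x a ha => ?_
    rw [row_convex]
    · have h1 := hpos' x a ha
      have h2 : 0 < wedge (∑ i, a i • (P (u i x) + C i x)) (∑ i, a i • (P (u i x) + C i x)) := by
        rw [wedge_sum]
        have e : ∀ i, ∑ j, a i * a j * wedge (P (u i x) + C i x) (P (u j x) + C j x) =
            a i ^ 2 * (D (fun m => u m x) / D') := by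
          intro i
          simp only [hθ, hcc]
          simp
          ring
        simp only [e]
        rw [← Finset.sum_mul]
        exact mul_pos (sumsq_pos ha) (hsign x)
      have ht0 := ht.1
      have ht1 : 0 ≤ 1 - t := by linarith [ht.2]
      rcases ht0.eq_or_lt with h0 | h0
      · rw [← h0]
        linarith
      · have h3 := mul_pos h0 h2
        have h4 := mul_nonneg ht1 h1.le
        linarith
    · intro k
      simp only [Finset.sum_apply, Pi.smul_apply, Pi.add_apply, smul_eq_mul]
      refine Finset.sum_congr rfl fun i _ => ?_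
      rw [hCrow, add_zero]
      simp [P, h00]

end Vale.Agent.P247
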