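import Vale.Agent.P247.Linear

/-! P247: a constant linear change of the three forms. -/

open scoped ContDiff Matrix

namespace Vale.Agent.P247

namespace LinCh

theorem comb_comb (a : Fin 3 → ℝ) (B : Matrix (Fin 3) (Fin 3) ℝ) (v : Fin 3 → V) :
    ∑ k, a k • ∑ m, B k m • v m = ∑ m, (a ᵥ* B) m • v m := by
  simp only [Finset.smul_sum, smul_smul, Matrix.vecMul, dotProduct, Finset.sum_smul]
  exact Finset.sum_comm

theorem sp_sum (c : Fin 3 → ℝ) {f : Fin 3 → X → ℝ} (hf : ∀ i, SP (f i)) :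
    SP fun y => ∑ i, c i * f i y :=
  ⟨ContDiff.sum fun i _ => contDiff_const.mul (hf i).smooth, fun i x =>
    Finset.sum_congr rfl fun m _ => by rw [(hf m).per]⟩

theorem pd_sum (c : Fin 3 → ℝ) {f : Fin 3 → X → ℝ} (hf : ∀ i, SP (f i)) (j : Fin 4) (x : X) :
    pd j (fun y => ∑ i, c i * f i y) x = ∑ i, c i * pd j (f i) x := by
  have hd : ∀ m, DifferentiableAt ℝ (f m) x := fun m =>
    ((hf m).smooth.differentiable (by simp)).differentiableAt
  unfold pd
  rw [fderiv_fun_sum fun m _ => (hd m).const_mul (c m)]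
  rw [sum_apply]
  refine Finset.sum_congr rfl fun m _ => ?_
  rw [fderiv_const_mul (hd m)]
  simp

end LinCh

open LinCh in
theorem linch (M : Matrix (Fin 3) (Fin 3) ℝ) (hM : IsUnit M.det) (w : Fin 3 → X → V)
    (hcl : ∀ i, IsClosedForm (w i)) (hn : IsNormalized w)
    (h : ∃ Ω : ℝ → Fin 3 → X → V, (∀ i, ContDiff ℝ ∞ fun p : ℝ × X => Ω p.1 i p.2) ∧
      Ω 0 = (fun k x => ∑ i, M k i • w i x) ∧
      (∀ t ∈ Set.Icc (0 : ℝ) 1, IsHypersymplectic (Ω t) ∧
        ∀ k, Cohomologous (Ω t k) (fun x => ∑ i, M k i • w i x)) ∧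
      Ω 1 = fun k _ => ∑ i, M k i • bar (w i)) : HasHyperkahlerDeformation w := by
  obtain ⟨Ω, hΩ, hΩ0, hΩt, hΩ1⟩ := h
  have hNM : M⁻¹ * M = 1 := Matrix.nonsing_inv_mul M hM
  have hinv : ∀ (i : Fin 3) (v : Fin 3 → V), ∑ k, M⁻¹ i k • ∑ m, M k m • v m = v i := by
    intro i v
    rw [comb_comb (M⁻¹ i) M v]
    have e : ∀ m, (M⁻¹ i ᵥ* M) m = if i = m then 1 else 0 := by
      intro m
      have := congrFun (congrFun hNM i) m
      rw [Matrix.one_apply] at this
      exact this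
    simp only [e, ite_smul, one_smul, zero_smul, Finset.sum_ite_eq, Finset.mem_univ, if_true]
  refine ⟨fun t i x => ∑ k, M⁻¹ i k • Ω t k x, fun i => ?_, ?_, fun t ht => ⟨⟨fun i => ?_,
    fun x => ?_⟩, fun i => ?_⟩, ?_, ?_⟩
  · exact ContDiff.sum fun k _ => (hΩ k).const_smul (M⁻¹ i k)
  · funext i x
    simp only [hΩ0]
    exact hinv i fun m => w m x
  · exact isClosedForm_comb (hΩt t ht).1.1 (M⁻¹ i)
  · rw [posDef_iff]
    intro a ha
    rw [comb_comb a M⁻¹ fun k => Ω t k x]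
    refine (posDef_iff fun k => Ω t k x).1 ((hΩt t ht).1.2 x) _ fun h0 => ha ?_
    have h1 : (a ᵥ* M⁻¹) ᵥ* M = 0 := by rw [h0, Matrix.zero_vecMul]
    rw [Matrix.vecMul_vecMul, hNM, Matrix.vecMul_one] at h1
    exact h1
  · choose α hα hα2 using (hΩt t ht).2
    refine ⟨fun j y => ∑ k, M⁻¹ i k * α k j y, fun j => sp_sum _ fun k => hα k j,
      fun x j k => ?_⟩
    rw [pd_sum (M⁻¹ i) (fun m => hα m k) j x, pd_sum (M⁻¹ i) (fun m => hα m j) k x,
      ← Finset.sum_sub_distrib]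
    have e1 : w i x = ∑ k, M⁻¹ i k • ∑ m, M k m • w m x := (hinv i fun m => w m x).symm
    rw [e1]
    simp only [Finset.sum_apply, Pi.smul_apply, smul_eq_mul]
    rw [← Finset.sum_sub_distrib]
    refine Finset.sum_congr rfl fun m _ => ?_
    rw [← mul_sub, ← mul_sub, ← hα2 m x j k]
    simp only [Finset.sum_apply, Pi.smul_apply, smul_eq_mul]
  · intro i
    exact isClosedForm_comb (hΩt 1 (Set.right_mem_Icc.2 zero_le_one)).1.1 (M⁻¹ i)
  · refine ⟨fun _ => 1 / 2, contDiff_const, fun _ => by norm_num, fun i j x => ?_⟩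
    have e1 : ∀ i, ∑ k, M⁻¹ i k • Ω 1 k x = bar (w i) := by
      intro i
      simp only [hΩ1]
      exact hinv i fun m => bar (w m)
    simp only [e1]
    rw [← wedge_bar (hcl i) (hcl j), hn i j]
    norm_num

end Vale.Agent.P247
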