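import Vale.Agent.P247.Linear

/-!
P247: moves of one entry of a hypersymplectic triple.
-/

open scoped ContDiff Matrix
open intervalIntegral

namespace Vale.Agent.P247

/-- the span of three forms is positive definite -/
def Pos3 (c d p : V) : Prop :=
  ∀ a : Fin 3 → ℝ, a ≠ 0 → 0 < Bl (a 0 • p + a 1 • c + a 2 • d) (a 0 • p + a 1 • c + a 2 • d)

variable {c d p q : V}

theorem Pos3.cd (h : Pos3 c d p) (b e : ℝ) (hbe : b ≠ 0 ∨ e ≠ 0) :
    0 < Bl (b • c + e • d) (b • c + e • d) := by
  have h1 := h ![0, b, e] (by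
    intro h0
    have e1 : b = 0 := congrFun h0 1
    have e2 : e = 0 := congrFun h0 2
    rcases hbe with hb | hb
    · exact hb e1
    · exact hb e2)
  have h2 : (![0, b, e] : Fin 3 → ℝ) 0 • p + (![0, b, e] : Fin 3 → ℝ) 1 • c +
      (![0, b, e] : Fin 3 → ℝ) 2 • d = b • c + e • d := by
    simp
  rw [h2] at h1
  exact h1

theorem Pos3.cd' (h : Pos3 c d p) (b e : ℝ) : 0 ≤ Bl (b • c + e • d) (b • c + e • d) := by
  by_cases hb : b ≠ 0 ∨ e ≠ 0
  · exact (h.cd b e hb).le
  · push Not at hb
    rw [hb.1, hb.2, zero_smul, zero_smul, add_zero, map_zero]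

theorem Pos3.disc (h : Pos3 c d p) : 0 < disc c d := by
  have hcc : 0 < Bl c c := by
    have := h.cd 1 0 (Or.inl one_ne_zero)
    rwa [one_smul, zero_smul, add_zero] at this
  have h1 := h.cd (Bl c d) (-Bl c c) (Or.inr (neg_ne_zero.2 hcc.ne'))
  have h2 : Bl (Bl c d • c + (-Bl c c) • d) (Bl c d • c + (-Bl c c) • d) =
      Bl c c * Vale.Agent.P247.disc c d := by
    simp only [map_add, map_smul, LinearMap.add_apply, LinearMap.smul_apply, smul_eq_mul,
      Vale.Agent.P247.disc, Bl_comm d c]
    ring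
  rw [h2] at h1
  exact (pos_iff_pos_of_mul_pos h1).1 hcc

theorem Pos3.perp (h : Pos3 c d p) : 0 < Bl (Pp c d p) (Pp c d p) := by
  have h1 := h ![1, -lam c d p, -rho c d p] (by
    intro h0
    exact one_ne_zero (congrFun h0 0))
  have e1 : Pp c d p = (1 : ℝ) • p + (-lam c d p) • c + (-rho c d p) • d := by
    rw [Pp_apply, one_smul, neg_smul, neg_smul]
    abel
  rw [e1]
  exact h1

/-- a vector is the sum of its projection and a combination of `c` and `d` -/
theorem split (v : V) : v = Pp c d v + (lam c d v • c + rho c d v • d) := by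
  rw [Pp_apply]
  abel

theorem sq_split (h : disc c d ≠ 0) (v : V) (b e : ℝ) :
    Bl (Pp c d v + (b • c + e • d)) (Pp c d v + (b • c + e • d)) =
      Bl (Pp c d v) (Pp c d v) + Bl (b • c + e • d) (b • c + e • d) := by
  have hc := Bl_Pp_c h v
  have hd := Bl_Pp_d h v
  simp only [map_add, map_smul, LinearMap.add_apply, LinearMap.smul_apply, smul_eq_mul, hc, hd,
    Bl_comm c (Pp c d v), Bl_comm d (Pp c d v)]
  ring

theorem pp_ne (hp : Pos3 c d p) (hq : Pos3 c d q) : Bl (Pp c d p) (Pp c d q) ≠ 0 := by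
  intro h0
  have hc' := fun v => Bl_Pp_c hp.disc.ne' v
  have hd' := fun v => Bl_Pp_d hp.disc.ne' v
  obtain ⟨b, hb, hb'⟩ := exists_wedge_nonpos ![Pp c d p, Pp c d q, c, d]
  rw [← Bl_apply, Fin.sum_univ_four] at hb'
  simp only [Matrix.cons_val_zero, Matrix.cons_val_one, Matrix.cons_val] at hb'
  rw [sq_expand (hc' _) (hd' _) (hc' _) (hd' _), h0, mul_zero, add_zero] at hb'
  have h1 := hp.perp
  have h2 := hq.perp
  by_cases h3 : b 0 = 0
  · by_cases h4 : b 1 = 0
    · have h5 : b 2 ≠ 0 ∨ b 3 ≠ 0 := by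
        by_contra h6
        push Not at h6
        apply hb
        ext i
        fin_cases i
        · exact h3
        · exact h4
        · exact h6.1
        · exact h6.2
      have h6 := hp.cd _ _ h5
      rw [h3, h4] at hb'
      linarith
    · have h5 := hp.cd' (b 2) (b 3)
      have h6 : 0 < b 1 ^ 2 := by positivity
      have h7 : 0 ≤ b 0 ^ 2 := sq_nonneg _
      nlinarith [mul_pos h6 h2, mul_nonneg h7 h1.le]
  · have h5 := hp.cd' (b 2) (b 3)
    have h6 : 0 < b 0 ^ 2 := by positivity
    have h7 : 0 ≤ b 1 ^ 2 := sq_nonneg _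
    nlinarith [mul_pos h6 h1, mul_nonneg h7 h2.le]

theorem neg_case (hp : Pos3 c d p) (hq : Pos3 c d q) (h : Bl (Pp c d p) (Pp c d q) < 0) :
    0 < Bl (p - q) (p - q) := by
  have e1 : p - q = Pp c d (p - q) + (lam c d (p - q) • c + rho c d (p - q) • d) := split _
  have e2 : Bl (p - q) (p - q) = Bl (Pp c d (p - q)) (Pp c d (p - q)) +
      Bl (lam c d (p - q) • c + rho c d (p - q) • d)
        (lam c d (p - q) • c + rho c d (p - q) • d) := by
    conv_lhs => rw [e1]
    exact sq_split hp.disc.ne' _ _ _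
  have e3 : Bl (Pp c d (p - q)) (Pp c d (p - q)) = Bl (Pp c d p) (Pp c d p) -
      2 * Bl (Pp c d p) (Pp c d q) + Bl (Pp c d q) (Pp c d q) := by
    simp only [map_sub, LinearMap.sub_apply, Bl_comm (Pp c d q) (Pp c d p)]
    ring
  rw [e2, e3]
  have h1 := hp.perp
  have h2 := hq.perp
  have h3 := hp.cd' (lam c d (p - q)) (rho c d (p - q))
  linarith

theorem pos_case (hp : Pos3 c d p) (hq : Pos3 c d q) (h : 0 < Bl (Pp c d p) (Pp c d q))
    (t : ℝ) (ht : t ∈ Set.Icc (0 : ℝ) 1) : Pos3 c d ((1 - t) • p + t • q) := by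
  obtain ⟨w, hw⟩ : ∃ w : V, w = (1 - t) • p + t • q := ⟨_, rfl⟩
  have hw1 : 0 < Bl (Pp c d w) (Pp c d w) := by
    have e1 : Pp c d w = (1 - t) • Pp c d p + t • Pp c d q := by
      rw [hw, map_add, map_smul, map_smul]
    have e2 : Bl (Pp c d w) (Pp c d w) = (1 - t) ^ 2 * Bl (Pp c d p) (Pp c d p) +
        2 * (1 - t) * t * Bl (Pp c d p) (Pp c d q) +
        t ^ 2 * Bl (Pp c d q) (Pp c d q) := by
      rw [e1]
      simp only [map_add, map_smul, LinearMap.add_apply, LinearMap.smul_apply, smul_eq_mul,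
        Bl_comm (Pp c d q) (Pp c d p)]
      ring
    rw [e2]
    have h1 := hp.perp
    have h2 := hq.perp
    have ht0 := ht.1
    have ht1 : 0 ≤ 1 - t := by linarith [ht.2]
    rcases ht0.eq_or_lt with h0 | h0
    · rw [← h0]
      simpa using h1
    · have h3 : 0 < t ^ 2 * Bl (Pp c d q) (Pp c d q) := by positivity
      have h4 : 0 ≤ 2 * (1 - t) * t * Bl (Pp c d p) (Pp c d q) := by positivity
      have h5 : 0 ≤ (1 - t) ^ 2 * Bl (Pp c d p) (Pp c d p) := by positivity
      linarith
  rw [← hw]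
  intro a ha
  have e3 : a 0 • w + a 1 • c + a 2 • d = Pp c d (a 0 • w) +
      ((a 1 + a 0 * lam c d w) • c + (a 2 + a 0 * rho c d w) • d) := by
    rw [Pp_apply, map_smul, map_smul, smul_eq_mul, smul_eq_mul, add_smul, add_smul]
    abel
  have e4 : Bl (Pp c d (a 0 • w)) (Pp c d (a 0 • w)) =
      a 0 * (a 0 * Bl (Pp c d w) (Pp c d w)) := by
    simp only [map_smul, LinearMap.smul_apply, smul_eq_mul]
  rw [e3, sq_split hp.disc.ne', e4]
  by_cases h0 : a 0 = 0
  · rw [h0]
    have h5 : a 1 ≠ 0 ∨ a 2 ≠ 0 := by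
      by_contra h6
      push Not at h6
      apply ha
      ext i
      fin_cases i
      · exact h0
      · exact h6.1
      · exact h6.2
    have := hp.cd (a 1) (a 2) h5
    simpa using this
  · have h5 := hp.cd' (a 1 + a 0 * lam c d w) (a 2 + a 0 * rho c d w)
    have h6 : 0 < a 0 * (a 0 * Bl (Pp c d w) (Pp c d w)) := by
      rw [← mul_assoc]
      exact mul_pos (mul_self_pos.2 h0) hw1
    linarith

theorem cont_Bl {f g : X → V} (hf : Continuous f) (hg : Continuous g) :
    Continuous fun x => Bl (f x) (g x) := by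
  have hf' := fun j k => continuous_pi_iff.1 (continuous_pi_iff.1 hf j) k
  have hg' := fun j k => continuous_pi_iff.1 (continuous_pi_iff.1 hg j) k
  simp only [Bl_apply, wedge]
  have := hf' 0 1
  have := hf' 0 2
  have := hf' 0 3
  have := hf' 1 2
  have := hf' 1 3
  have := hf' 2 3
  have := hg' 0 1
  have := hg' 0 2
  have := hg' 0 3
  have := hg' 1 2
  have := hg' 1 3
  have := hg' 2 3
  fun_prop

theorem cont_Pp {c d p : X → V} (hc : Continuous c) (hd : Continuous d) (hp : Continuous p)
    (h : ∀ x, disc (c x) (d x) ≠ 0) : Continuous fun x => Pp (c x) (d x) (p x) := by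
  have hdisc : Continuous fun x => (disc (c x) (d x))⁻¹ :=
    (((cont_Bl hc hc).mul (cont_Bl hd hd)).sub ((cont_Bl hc hd).mul (cont_Bl hc hd))).inv₀ h
  simp only [Pp_apply, lam_apply, rho_apply]
  exact (hp.sub ((hdisc.mul (((cont_Bl hd hd).mul (cont_Bl hc hp)).sub
    ((cont_Bl hc hd).mul (cont_Bl hd hp)))).smul hc)).sub
    ((hdisc.mul (((cont_Bl hc hc).mul (cont_Bl hd hp)).sub
    ((cont_Bl hc hd).mul (cont_Bl hc hp)))).smul hd)

/-- convexity of the third entry -/
theorem move3 {c d p q : X → V} (hc : Continuous c) (hd : Continuous d) (hp : Continuous p)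
    (hq : Continuous q) (h1 : ∀ x, Pos3 (c x) (d x) (p x)) (h2 : ∀ x, Pos3 (c x) (d x) (q x))
    (h3 : ¬ ∀ x, 0 < Bl (p x - q x) (p x - q x)) (t : ℝ) (ht : t ∈ Set.Icc (0 : ℝ) 1) (x : X) :
    Pos3 (c x) (d x) ((1 - t) • p x + t • q x) := by
  have hg : Continuous fun x => Bl (Pp (c x) (d x) (p x)) (Pp (c x) (d x) (q x)) :=
    cont_Bl (cont_Pp hc hd hp fun x => (h1 x).disc.ne')
      (cont_Pp hc hd hq fun x => (h1 x).disc.ne')
  refine pos_case (h1 x) (h2 x) ?_ t ht
  by_contra hneg
  push Not at hneg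
  apply h3
  intro y
  refine neg_case (h1 y) (h2 y) ?_
  by_contra hpos
  push Not at hpos
  obtain ⟨z, hz⟩ := mem_range_of_exists_le_of_exists_ge hg ⟨x, hneg⟩ ⟨y, hpos⟩
  exact pp_ne (h1 z) (h2 z) hz

/-- positivity of a triple in terms of `Pos3` -/
theorem pos3_iff (v : Fin 3 → V) (e : Equiv.Perm (Fin 3)) :
    (Matrix.of fun i j => wedge (v i) (v j) : Matrix (Fin 3) (Fin 3) ℝ).PosDef ↔
      Pos3 (v (e 1)) (v (e 2)) (v (e 0)) := by
  rw [posDef_iff]
  have key : ∀ a : Fin 3 → ℝ, ∑ i, a i • v i =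
      a (e 0) • v (e 0) + a (e 1) • v (e 1) + a (e 2) • v (e 2) := by
    intro a
    rw [← Equiv.sum_comp e, Fin.sum_univ_three]
  constructor
  · intro h b hb
    have h1 := h (b ∘ e.symm) (by
      intro h0
      apply hb
      funext i
      have := congrFun h0 (e i)
      simpa using this)
    rw [key] at h1
    rw [Bl_apply]
    simpa only [Function.comp_apply, Equiv.symm_apply_apply] using h1
  · intro h a ha
    have h1 := h (a ∘ e) (by
      intro h0
      apply ha
      funext i
      have := congrFun h0 (e.symm i)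
      simpa using this)
    rw [key]
    exact h1

/-- the difference of cohomologous forms does not have positive square everywhere -/
theorem not_pos_of_cohomologous {F H : X → V} (hF : IsClosedForm F) (hH : IsClosedForm H)
    (h : Cohomologous F H) : ¬ ∀ x, 0 < Bl (F x - H x) (F x - H x) := by
  intro hpos
  obtain ⟨α, hα, hα2⟩ := h
  have hD : IsClosedForm fun x => F x - H x := by
    have := isClosedForm_comb (w := ![F, H, H]) (by
      intro i
      fin_cases i
      · exact hF
      · exact hH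
      · exact hH) ![1, -1, 0]
    have e : (fun x => F x - H x) = fun x => ∑ i, (![1, -1, 0] : Fin 3 → ℝ) i •
        (![F, H, H] : Fin 3 → X → V) i x := by
      funext x
      simp [Fin.sum_univ_three, sub_eq_add_neg]
    rw [e]
    exact this
  have h0 := mean_wedge_exact hD α hα 0
  have e2 : (fun y => wedge (fun j k => Vale.Agent.P247.pd j (α k) y -
      Vale.Agent.P247.pd k (α j) y) (F y - H y)) = fun y => wedge (F y - H y) (F y - H y) := by
    funext y
    congr 1
    funext j k
    exact (hα2 y j k).symm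
  rw [e2] at h0
  have hsp : SP fun y => wedge (F y - H y) (F y - H y) := by
    refine ⟨?_, fun i x => by rw [hF.per, hH.per]⟩
    have hf := fun j k => (hD.sp j k).smooth
    simp only [wedge]
    exact ((((((hf 0 1).mul (hf 2 3)).sub ((hf 0 2).mul (hf 1 3))).add
      ((hf 0 3).mul (hf 1 2))).add ((hf 1 2).mul (hf 0 3))).sub
      ((hf 1 3).mul (hf 0 2))).add ((hf 2 3).mul (hf 0 1))
  have h1 := mean_pos hsp (fun x => hpos x) 0
  linarith

/-- One-entry moves: hypersymplectic triples which differ in one entry only, in which they are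
cohomologous, are joined by the linear path. -/
theorem move (w w' : Fin 3 → X → V) (h : IsHypersymplectic w) (h' : IsHypersymplectic w')
    (k : Fin 3) (hk : ∀ i, i ≠ k → w i = w' i) (hco : Cohomologous (w k) (w' k)) (t : ℝ)
    (ht : t ∈ Set.Icc (0 : ℝ) 1) : IsHypersymplectic fun i x => (1 - t) • w i x + t • w' i x := by
  obtain ⟨e, he⟩ : ∃ e : Equiv.Perm (Fin 3), e 0 = k := ⟨Equiv.swap 0 k, by simp⟩
  have h1 : e 1 ≠ k := by
    rw [← he]
    exact fun h => by simpa using e.injective h
  have h2 : e 2 ≠ k := by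
    rw [← he]
    exact fun h => by simpa using e.injective h
  refine ⟨fun i => ?_, fun x => ?_⟩
  · have := isClosedForm_comb (w := ![w i, w' i, w i]) (by
      intro j
      fin_cases j
      · exact h.1 i
      · exact h'.1 i
      · exact h.1 i) ![1 - t, t, 0]
    have e : (fun x => (1 - t) • w i x + t • w' i x) = fun x =>
        ∑ j, (![1 - t, t, 0] : Fin 3 → ℝ) j • (![w i, w' i, w i] : Fin 3 → X → V) j x := by
      funext x
      simp [Fin.sum_univ_three]
    show IsClosedForm fun x => (1 - t) • w i x + t • w' i x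
    rw [e]
    exact this
  · rw [pos3_iff (fun i => (1 - t) • w i x + t • w' i x) e]
    have key : ∀ i, i ≠ k → (1 - t) • w i x + t • w' i x = w i x := by
      intro i hi
      rw [← hk i hi, ← add_smul]
      simp
    simp only [he]
    rw [key _ h1, key _ h2]
    refine move3 (c := w (e 1)) (d := w (e 2)) (p := w k) (q := w' k)
      (h.1 _).smooth.continuous (h.1 _).smooth.continuous (h.1 _).smooth.continuous
      (h'.1 _).smooth.continuous (fun x => ?_) (fun x => ?_)
      (not_pos_of_cohomologous (h.1 k) (h'.1 k) hco) t ht x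
    · have := (pos3_iff (fun i => w i x) e).1 (h.2 x)
      simpa only [he] using this
    · have := (pos3_iff (fun i => w' i x) e).1 (h'.2 x)
      simp only [he] at this
      rw [hk _ h1, hk _ h2]
      exact this

end Vale.Agent.P247
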