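import Vale.Agent.P247.ChainInv
import Vale.Agent.P247.Classes

/-!
P247: triples from which a chain of one-entry moves leads to one of the treated classes.
-/

open scoped ContDiff Matrix
open intervalIntegral

namespace Vale.Agent.P247

theorem deform_of_chain (w v : Fin 3 → X → V) (h : IsHypersymplectic w) (hn : IsNormalized w)
    (hc : Relation.ReflTransGen Move w v)
    (hv : IsHypersymplectic v → IsNormalized v → HasHyperkahlerDeformation v) :
    HasHyperkahlerDeformation w := by
  obtain ⟨Ω, hs, h0, h1, hΩ⟩ := joined_of_chain h hc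
  have hv1 := hΩ 1 ⟨zero_le_one, le_rfl⟩
  rw [h1] at hv1
  obtain ⟨hvh, hco⟩ := hv1
  have hbar : ∀ i, bar (v i) = bar (w i) := fun i => bar_of_coh (hvh.1 i) (h.1 i) (hco i)
  have hvn : IsNormalized v := by
    intro i j
    rw [wedge_bar (hvh.1 i) (hvh.1 j), hbar i, hbar j, ← wedge_bar (h.1 i) (h.1 j)]
    exact hn i j
  obtain ⟨θ, hθ, hc2⟩ := (deformation_iff_chain v hvh).1 (hv hvh hvn)
  exact (deformation_iff_chain w h).2 ⟨θ, hθ, hc.trans hc2⟩

end Vale.Agent.P247
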