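import Vale.Agent.P247.ReplDefs
import Vale.Agent.P247.ChainA
import Vale.Agent.P247.LinCh

/-! P247: replaceable triples have a hyperkähler deformation. -/

open scoped ContDiff Matrix

namespace Vale.Agent.P247

namespace Repl

theorem closed_const {F : X → V} (hF : IsClosedForm F) : IsClosedForm fun _ => bar F := by
  have h := isClosedForm_segment hF (bar_anti hF) 1
  have e : (fun x => (1 - (1 : ℝ)) • F x + (1 : ℝ) • bar F) = fun _ => bar F := by
    funext x
    simp
  rw [e] at h
  exact h

theorem coh_bar {F : X → V} (hF : IsClosedForm F) : Cohomologous F (fun _ => bar F) := by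
  have h := cohomologous_mean hF
  have e : (fun x j k => mean (fun y => F y j k) x) = fun (_ : X) => bar F := by
    funext x j k
    rw [mean_const (hF.sp j k) x 0]
    rfl
  rw [e] at h
  exact h

theorem vecMul_ne {M : Matrix (Fin 3) (Fin 3) ℝ} (hM : IsUnit M.det) {a : Fin 3 → ℝ}
    (ha : a ≠ 0) : a ᵥ* M ≠ 0 := by
  intro h0
  apply ha
  have h1 : (a ᵥ* M) ᵥ* M⁻¹ = 0 := by rw [h0, Matrix.zero_vecMul]
  rw [Matrix.vecMul_vecMul, Matrix.mul_nonsing_inv M hM, Matrix.vecMul_one] at h1
  exact h1

/-- transport of positivity -/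
theorem posDef_congr {v v' : Fin 3 → V} (h : ∀ i, v i = v' i)
    (hp : (Matrix.of fun i j => wedge (v' i) (v' j) : Matrix (Fin 3) (Fin 3) ℝ).PosDef) :
    (Matrix.of fun i j => wedge (v i) (v j) : Matrix (Fin 3) (Fin 3) ℝ).PosDef := by
  have e : v = v' := funext h
  rw [e]
  exact hp

end Repl

open Repl

theorem deform_of_replaceable (w : Fin 3 → X → V) (h : IsHypersymplectic w) (hn : IsNormalized w)
    (hr : Replaceable w) : HasHyperkahlerDeformation w := by
  obtain ⟨M, hM, hr⟩ := hr
  obtain ⟨hcl, hpos⟩ := h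
  have e0 : ∀ i, meanForm (w i) = bar (w i) := fun i => meanForm_eq _
  simp only [e0] at hr
  obtain ⟨u, hu⟩ : ∃ u : Fin 3 → X → V, u = fun k x => ∑ m, M k m • w m x := ⟨_, rfl⟩
  have huk : ∀ k x, u k x = ∑ m, M k m • w m x := fun k x => by rw [hu]
  have hucl : ∀ k, IsClosedForm (u k) := fun k => by
    rw [hu]
    exact isClosedForm_comb hcl (M k)
  have hbar : ∀ k, bar (u k) = ∑ m, M k m • bar (w m) := fun k => by
    rw [hu]
    exact bar_comb hcl (M k)
  have h0 : IsHypersymplectic u := by
    refine ⟨hucl, fun x => ?_⟩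
    rw [posDef_iff]
    intro a ha
    simp only [huk]
    rw [LinCh.comb_comb a M fun m => w m x]
    exact (posDef_iff fun i => w i x).1 (hpos x) _ (vecMul_ne hM ha)
  have h1 : IsHypersymplectic ![fun _ => bar (u 0), u 1, u 2] := by
    refine ⟨fun i => ?_, fun x => ?_⟩
    · fin_cases i
      · exact closed_const (hucl 0)
      · exact hucl 1
      · exact hucl 2
    · refine posDef_congr (fun i => ?_) (hr x).1
      fin_cases i
      · exact hbar 0
      · exact huk 1 x
      · exact huk 2 x
  have h2 : IsHypersymplectic ![fun _ => bar (u 0), fun _ => bar (u 1), u 2] := by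
    refine ⟨fun i => ?_, fun x => ?_⟩
    · fin_cases i
      · exact closed_const (hucl 0)
      · exact closed_const (hucl 1)
      · exact hucl 2
    · refine posDef_congr (fun i => ?_) (hr x).2
      fin_cases i
      · exact hbar 0
      · exact hbar 1
      · exact huk 2 x
  have h3 : IsHypersymplectic fun k _ => bar (u k) := by
    refine ⟨fun i => closed_const (hucl i), fun x => ?_⟩
    rw [posDef_iff]
    intro a ha
    simp only [hbar]
    rw [LinCh.comb_comb a M fun m => bar (w m), wedge_bar_comb w hcl hn]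
    exact sumsq_pos (vecMul_ne hM ha)
  have m0 : Move u ![fun _ => bar (u 0), u 1, u 2] := by
    refine ⟨h0, h1, 0, fun i hi => ?_, coh_bar (hucl 0)⟩
    fin_cases i
    · exact absurd rfl hi
    · rfl
    · rfl
  have m1 : Move ![fun _ => bar (u 0), u 1, u 2] ![fun _ => bar (u 0), fun _ => bar (u 1), u 2] := by
    refine ⟨h1, h2, 1, fun i hi => ?_, coh_bar (hucl 1)⟩
    fin_cases i
    · rfl
    · exact absurd rfl hi
    · rfl
  have m2 : Move ![fun _ => bar (u 0), fun _ => bar (u 1), u 2] (fun k _ => bar (u k)) := by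
    refine ⟨h2, h3, 2, fun i hi => ?_, coh_bar (hucl 2)⟩
    fin_cases i
    · rfl
    · rfl
    · exact absurd rfl hi
  obtain ⟨Ω, hΩ, hΩ0, hΩ1, hΩt⟩ := joined_of_chain h0
    (((Relation.ReflTransGen.single m0).tail m1).tail m2)
  refine linch M hM w hcl hn ⟨Ω, hΩ, by rw [hΩ0, hu], fun t ht => ?_, ?_⟩
  · have := hΩt t ht
    rw [hu] at this
    exact this
  · rw [hΩ1]
    funext k x
    exact hbar k

end Vale.Agent.P247
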