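import Vale.Agent.P247.Linear

/-!
P247: successive replacement of the forms of a triple by their means.
-/

namespace Vale.Agent.P247

/-- After an invertible constant linear change `u = M w` of the triple, the triples
`(mean u₀, u₁, u₂)` and `(mean u₀, mean u₁, u₂)` are pointwise positive definite. -/
def Replaceable (w : Fin 3 → X → V) : Prop :=
  ∃ M : Matrix (Fin 3) (Fin 3) ℝ, IsUnit M.det ∧ ∀ x,
    (Matrix.of fun i j => wedge
      ((![∑ m, M 0 m • meanForm (w m), ∑ m, M 1 m • w m x, ∑ m, M 2 m • w m x] : Fin 3 → V) i)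
      ((![∑ m, M 0 m • meanForm (w m), ∑ m, M 1 m • w m x, ∑ m, M 2 m • w m x] : Fin 3 → V) j) :
        Matrix (Fin 3) (Fin 3) ℝ).PosDef ∧
    (Matrix.of fun i j => wedge
      ((![∑ m, M 0 m • meanForm (w m), ∑ m, M 1 m • meanForm (w m), ∑ m, M 2 m • w m x] :
        Fin 3 → V) i)
      ((![∑ m, M 0 m • meanForm (w m), ∑ m, M 1 m • meanForm (w m), ∑ m, M 2 m • w m x] :
        Fin 3 → V) j) : Matrix (Fin 3) (Fin 3) ℝ).PosDef

end Vale.Agent.P247
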